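import Vale.Agent.P073.H622.BlkM
import Vale.Agent.P073.H490.I2b
import Vale.Agent.P073.H911.VolForms

/-!
# P073, block B09, [TGT-USE]: the target theorem applied to the boxes
-/

namespace Vale.Agent.P073.H622

open MeasureTheory Set Filter Topology Metric Matrix Vale.Agent.P073.St
open Vale.Agent.P073.AB (Idx Part cl)
open Vale.Agent.P073.AB
open Vale.Agent.P073.H73 (ctr)
open Vale.Agent.P073.H696 (Boxes Tgt am blk blkS deep Mx bx)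
open Vale.Agent.P073.H726 (LBOn)
open Vale.Agent.P073.H851 (M3)
open _root_.P073.Net (dyc dyo)
open _root_.P073 (ConHomeo)
open scoped ENNReal

/-! ### The deep cubes -/

theorem finite_blk' (k : Idx) (m : ℕ) : (blk k m).Finite := by
  refine (Set.finite_Icc (fun i => 2 ^ (m - k.1) * k.2 i : Fin 3 → ℤ)
    (fun i => 2 ^ (m - k.1) * (k.2 i + 1))).subset fun z hz => ?_
  exact ⟨fun i => by have := (hz i).1; simp only; linarith,
    fun i => by have := (hz i).2; simp only; linarith⟩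

theorem isCompact_deep' (v : V) (n : Idx → ℕ) (c : ℝ) (k : Idx) : IsCompact (deep v n c k) :=
  (finite_blk' k (n k)).isCompact_biUnion fun _ _ => isCompact_closedBall _ _

theorem deep_mono (v : V) (n : Idx → ℕ) {c c' : ℝ} (h : c ≤ c') (k : Idx) :
    deep v n c' k ⊆ deep v n c k := by
  refine iUnion₂_mono fun z _ => closedBall_subset_closedBall ?_
  gcongr

theorem deep_sub_interior (v : V) (n : Idx → ℕ) {c c' : ℝ} (h : c < c') (k : Idx) :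
    deep v n c' k ⊆ interior (deep v n c k) := by
  refine iUnion₂_subset fun z hz => ?_
  have h1 : closedBall (ctr v (n k) z) ((1 - 2 * c') / 2 / 2 ^ n k) ⊆
      ball (ctr v (n k) z) ((1 - 2 * c) / 2 / 2 ^ n k) := closedBall_subset_ball (by gcongr)
  exact h1.trans (interior_maximal (ball_subset_closedBall.trans
    (subset_iUnion₂ (s := fun z (_ : z ∈ blk k (n k)) =>
      closedBall (ctr v (n k) z) ((1 - 2 * c) / 2 / 2 ^ n k)) z hz)) isOpen_ball)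

theorem deep_mg (v : V) {n : Idx → ℕ} {c : ℝ} (hc : 0 ≤ c) {k : Idx} (hn : k.1 ≤ n k) {y : V}
    (hy : y ∈ deep v n c k) : ‖y - ctr v k.1 k.2‖ ≤ 1 / 2 / 2 ^ k.1 - 1 / 2 ^ n k := by
  obtain ⟨z, hz, hyz⟩ := mem_iUnion₂.1 hy
  refine blk_mg hn hz ?_
  rw [H304.dyc_eq_closedBall]
  refine closedBall_subset_closedBall ?_ hyz
  gcongr
  linarith

variable {p ε M₀ : ℝ} {c : ℝ≥0∞} {τ₀ φ κ μ : V → ℝ} {s : V → ℕ} {Ω Λ : Set V}
  {f : V → V} {F : V → Mat} {v : V} {nn : ℕ → ℕ} {K : Set Idx} {x : Idx → V} {n : Idx → ℕ}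

/-- the image of the deep cubes is in the image of the open box -/
theorem am_deep_sub (B : Boxes p ε M₀ c τ₀ φ κ μ s Ω Λ f F v nn K x)
    (hn : ∀ k ∈ K, k.1 ≤ n k) (hκ : ∀ k ∈ K, κ (x k) / 2 ^ k.1 ≤ 1 / 2 ^ n k) {k : Idx}
    (hk : k ∈ K) {c : ℝ} (hc : 0 ≤ c) :
    am f F (x k) '' deep v n c k ⊆ f '' dyo v k.1 k.2 := by
  refine (image_mono ?_).trans (img_of B hκ hk)
  intro y hy
  rw [mem_closedBall, dist_eq_norm]
  refine (deep_mg v hc (hn k hk) hy).trans ?_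
  unfold H803.rB
  have : (1:ℝ) / 2 / 2 ^ n k ≤ 1 / 2 ^ n k := by gcongr; norm_num
  linarith

theorem f_disj (B : Boxes p ε M₀ c τ₀ φ κ μ s Ω Λ f F v nn K x) (hf : St.IsHomeo Ω Λ f)
    {k l : Idx} (hk : k ∈ K) (hl : l ∈ K) (hne : k ≠ l) :
    Disjoint (f '' dyo v k.1 k.2) (f '' dyo v l.1 l.2) := by
  obtain ⟨g, hg, -, -⟩ := hf
  rw [Set.disjoint_left]
  rintro w ⟨y, hy, rfl⟩ ⟨y', hy', h⟩
  have h1 : y = y' := by
    rw [← (hg.1 y ((B.pt k hk).2.1 (P86.dyo_sub_dyc hy))).2, ← h,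
      (hg.1 y' ((B.pt l hl).2.1 (P86.dyo_sub_dyc hy'))).2]
  subst h1
  exact Set.disjoint_left.1 (B.disj k hk l hl hne) hy hy'

/-- finitely many boxes have an image which meets a compact set of the target -/
theorem f_fin (B : Boxes p ε M₀ c τ₀ φ κ μ s Ω Λ f F v nn K x) (hf : St.IsHomeo Ω Λ f)
    {C : Set V} (hC : IsCompact C) (hCΛ : C ⊆ Λ) :
    {k ∈ K | (f '' dyo v k.1 k.2 ∩ C).Nonempty}.Finite := by
  obtain ⟨g, hg, -, hgc⟩ := hf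
  have h1 : IsCompact (g '' C) := hC.image_of_continuousOn (hgc.mono hCΛ)
  have h2 : g '' C ⊆ Ω := by
    rintro _ ⟨w, hw, rfl⟩
    exact (hg.2 w (hCΛ hw)).1
  refine (B.fin _ h2 h1).subset ?_
  rintro k ⟨hk, w, ⟨y, hy, rfl⟩, hw⟩
  refine ⟨hk, y, P86.dyo_sub_dyc hy, f y, hw, ?_⟩
  exact (hg.1 y ((B.pt k hk).2.1 (P86.dyo_sub_dyc hy))).2

/-! ### The size of the tiles -/

/-- **the size of the tiles** -/
theorem exists_dt (B : Boxes p ε M₀ c τ₀ φ κ μ s Ω Λ f F v nn K x) (hΛ : IsOpen Λ)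
    (hf : St.IsHomeo Ω Λ f) {P : Idx → Set V} (hP : ∀ k ∈ K, P k ⊆ f '' dyo v k.1 k.2)
    {d : Idx → ℝ} (hd : ∀ k ∈ K, 0 < d k) {ε₂ : ℝ} (hε₂ : 0 < ε₂) :
    ∃ δt : V → ℝ, LBOn Λ δt ∧ (∀ k ∈ K, ∀ w ∈ P k, δt w ≤ d k) ∧ ∀ w, δt w ≤ ε₂ := by
  classical
  set δt : V → ℝ := fun w => if h : ∃ k ∈ K, w ∈ P k then min ε₂ (d h.choose) else ε₂ with hδt
  have hval : ∀ k ∈ K, ∀ w ∈ P k, δt w = min ε₂ (d k) := by
    intro k hk w hw
    have h : ∃ k ∈ K, w ∈ P k := ⟨k, hk, hw⟩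
    have h1 : δt w = min ε₂ (d h.choose) := dif_pos h
    have h2 : h.choose = k := by
      by_contra hne
      exact Set.disjoint_left.1 (f_disj B hf h.choose_spec.1 hk hne)
        (hP _ h.choose_spec.1 h.choose_spec.2) (hP k hk hw)
    rw [h1, h2]
  refine ⟨δt, ?_, fun k hk w hw => ?_, fun w => ?_⟩
  · intro w₀ hw₀
    obtain ⟨ρ, hρ, hsub⟩ := Metric.isOpen_iff.1 hΛ w₀ hw₀
    have hCΛ : closedBall w₀ (ρ / 2) ⊆ Λ := (closedBall_subset_ball (by linarith)).trans hsub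
    have hfin := f_fin B hf (isCompact_closedBall w₀ (ρ / 2)) hCΛ
    obtain ⟨m, hm, hmk⟩ := exists_pos_finite (X := Unit) (l := ⊤) hfin
      (Q := fun k _ m => m ≤ d k) (fun k _ m m' h h' => h.trans h')
      fun k hk => ⟨d k, hd k hk.1, Eventually.of_forall fun _ => le_rfl⟩
    have hmk' : ∀ k ∈ K, (f '' dyo v k.1 k.2 ∩ closedBall w₀ (ρ / 2)).Nonempty → m ≤ d k := by
      intro k hk hne
      have := (Filter.eventually_top.1 hmk) ()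
      exact this k ⟨hk, hne⟩
    refine ⟨min ε₂ m, lt_min hε₂ hm, ?_⟩
    filter_upwards [closedBall_mem_nhds w₀ (half_pos hρ)] with w hw _
    by_cases h : ∃ k ∈ K, w ∈ P k
    · obtain ⟨k, hk, hwk⟩ := h
      rw [hval k hk w hwk]
      exact min_le_min le_rfl (hmk' k hk ⟨w, hP k hk hwk, hw⟩)
    · have : δt w = ε₂ := dif_neg h
      rw [this]
      exact min_le_left _ _
  · rw [hval k hk w hw]
    exact min_le_right _ _
  · by_cases h : ∃ k ∈ K, w ∈ P k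
    · have h1 : δt w = min ε₂ (d h.choose) := dif_pos h
      rw [h1]
      exact min_le_left _ _
    · have : δt w = ε₂ := dif_neg h
      rw [this]

theorem det_Mx (F : V → Mat) (x : Idx → V) (k : Idx) : (Mx F x k).det = (cl (F (x k))).det := by
  unfold Mx cl ContinuousLinearMap.det
  rw [LinearMap.coe_toContinuousLinearMap, LinearMap.det_toLin']

theorem lt_of_ofReal_lt {a b : ℝ} (h : ENNReal.ofReal a < ENNReal.ofReal b) : a < b := by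
  by_contra hcon
  exact absurd h (not_lt.2 (ENNReal.ofReal_le_ofReal (not_lt.1 hcon)))

/-- The general form: `Q` is what the oracle `hT` of the target gives, `Zo` an exceptional set of
the target, `εB` the bound of the boxes, `ε` the bound of the oracle. -/
theorem tgt_useQ {εB : ℝ} (hp : 0 ≤ p) (hΛ : St.IsBoundedDomain Λ) (hf : St.IsHomeo Ω Λ f)
    (B : Boxes p εB M₀ c τ₀ φ κ μ s Ω Λ f F v nn K x) (hn : ∀ k ∈ K, k.1 ≤ n k)
    (hκ : ∀ k ∈ K, κ (x k) / 2 ^ k.1 ≤ 1 / 2 ^ n k) {c₀ : Idx → ℝ}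
    (hc₀ : ∀ k ∈ K, 0 < c₀ k)
    (hvol : ∀ k ∈ K, volume (dyc v k.1 k.2 \ deep v n (4 * c₀ k) k) ≤
      ENNReal.ofReal (φ (x k)) * volume (dyc v k.1 k.2)) (Lc : M3 → ℝ)
    (hhigh : ∑' k : {k : Idx // k ∈ K ∧ M₀ * |(cl (F (x k))).det| < ‖cl (F (x k))‖ ^ p},
      ‖cl (F (x k.1))‖ₑ ^ p * volume (dyc v k.1.1 k.1.2) ≤ ENNReal.ofReal ε)
    {Zo : Set V}
    (hZ : ∑' k : {k // k ∈ K}, ‖cl (F (x k.1))‖ₑ ^ p *
      volume {y | y ∈ deep v n (3 * c₀ k.1) k.1 ∧ am f F (x k.1) y ∈ Zo} ≤ ENNReal.ofReal ε)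
    {Q : ∀ B : Type, (B → M3) → (B → V) → (B → Set V) → (B → ℝ≥0∞) → (B → ℝ≥0∞) → (V → ℝ) →
      Prop}
    (hT : ∀ (B : Type) (A : B → M3) (b : B → V) (D D' : B → Set V) (α W : B → ℝ≥0∞) (δt : V → ℝ),
        (∀ k, (A k).det ≠ 0) →
        (∀ k, IsCompact (D k) ∧ IsCompact (D' k) ∧ D' k ⊆ interior (D k)) →
        (∀ k, (fun x => A k *ᵥ x + b k) '' D k ⊆ Λ) →
        (∀ k l, k ≠ l → Disjoint ((fun x => A k *ᵥ x + b k) '' D k)
          ((fun x => A l *ᵥ x + b l) '' D l)) →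
        (∀ C ⊆ Λ, IsCompact C → {k | ((fun x => A k *ᵥ x + b k) '' D k ∩ C).Nonempty}.Finite) →
        ∫⁻ y in Λ \ ⋃ k, (fun x => A k *ᵥ x + b k) '' D' k, ENNReal.ofReal (1 / τ₀ y) ^ 3 ≤ c →
        (∀ k, α k ≠ ⊤) → (∀ k, W k ≠ ⊤) →
        ∑' k : {k : B // ENNReal.ofReal (M₀ * |(A k).det|) < α k}, α k.1 * volume (D k.1) ≤
          ENNReal.ofReal ε →
        ∑' k, α k * volume {x | x ∈ D k ∧ A k *ᵥ x + b k ∈ Zo} ≤ ENNReal.ofReal ε →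
        LBOn Λ δt → Q B A b D α W δt)
    (N : Idx → ℕ) {ε₂ : ℝ} (hε₂ : 0 < ε₂) :
    ∃ (W : {k // k ∈ K} → ℝ≥0∞) (δt : V → ℝ),
      (∀ k : {k // k ∈ K},
        ENNReal.ofReal ((Lc (Mx F x k) * (1 + ‖cl (F (x k))‖)) ^ p) ≤ W k) ∧
      Q {k // k ∈ K} (fun k => Mx F x k.1) (fun k => bx f F x k.1)
        (fun k => deep v n (3 * c₀ k.1) k.1) (fun k => ‖cl (F (x k.1))‖ₑ ^ p) W δt ∧
      (∀ k ∈ K, ∀ y ∈ deep v n (2 * c₀ k) k, δt (am f F (x k) y) ≤ c₀ k / 16 / 2 ^ n k ∧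
        δt (am f F (x k) y) < 1 / 2 ^ N k) ∧ ∀ y, δt y ≤ ε₂ := by
  have himg : ∀ k : {k // k ∈ K}, ∀ S : Set V,
      (fun y => Mx F x k.1 *ᵥ y + bx f F x k.1) '' S = am f F (x k.1) '' S := fun k S =>
    image_congr fun y _ => (H490.am_eq f F x k.1 y).symm
  have hsub : ∀ k : {k // k ∈ K}, ∀ c : ℝ, 0 ≤ c →
      (fun y => Mx F x k.1 *ᵥ y + bx f F x k.1) '' deep v n c k.1 ⊆ f '' dyo v k.1.1 k.1.2 := by
    intro k c hc
    rw [himg]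
    exact am_deep_sub B hn hκ k.2 hc
  obtain ⟨δt, hLB, hdt, hdt'⟩ := exists_dt B hΛ.1 hf
    (P := fun k => am f F (x k) '' deep v n (2 * c₀ k) k)
    (fun k hk => am_deep_sub B hn hκ hk (by have := hc₀ k hk; linarith))
    (d := fun k => min (c₀ k / 16 / 2 ^ n k) (1 / 2 / 2 ^ N k))
    (fun k hk => lt_min (by have := hc₀ k hk; positivity) (by positivity)) hε₂
  set W : {k // k ∈ K} → ℝ≥0∞ := fun k =>
    ENNReal.ofReal ((Lc (Mx F x k) * (1 + ‖cl (F (x k))‖)) ^ p) with hW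
  have hQ := hT {k // k ∈ K}
    (fun k => Mx F x k.1) (fun k => bx f F x k.1) (fun k => deep v n (3 * c₀ k.1) k.1)
    (fun k => deep v n (4 * c₀ k.1) k.1) (fun k => ‖cl (F (x k.1))‖ₑ ^ p) W δt
    (fun k => by rw [det_Mx]; exact (B.pt k.1 k.2).2.2.1)
    (fun k => ⟨isCompact_deep' _ _ _ _, isCompact_deep' _ _ _ _,
      deep_sub_interior v n (by have := hc₀ k.1 k.2; linarith) k.1⟩)
    (fun k => (hsub k _ (by have := hc₀ k.1 k.2; linarith)).trans (by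
      obtain ⟨g, hg, -, -⟩ := hf
      rintro _ ⟨y, hy, rfl⟩
      exact (hg.1 y ((B.pt k.1 k.2).2.1 (P86.dyo_sub_dyc hy))).1))
    (fun k l hkl => (f_disj B hf k.2 l.2 fun h => hkl (Subtype.ext h)).mono
      (hsub k _ (by have := hc₀ k.1 k.2; linarith)) (hsub l _ (by have := hc₀ l.1 l.2; linarith)))
    (fun C hCΛ hC => by
      refine ((f_fin B hf hC hCΛ).preimage Subtype.val_injective.injOn).subset ?_
      rintro k ⟨w, hw, hwC⟩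
      exact ⟨k.2, w, hsub k _ (by have := hc₀ k.1 k.2; linarith) hw, hwC⟩)
    (by
      have h1 := B.frac (fun k => deep v n (4 * c₀ k) k) fun k hk => ⟨isCompact_deep' _ _ _ _,
        fun y hy => by
          have h2 := deep_mg v (by have := hc₀ k hk; linarith) (hn k hk) hy
          rw [H304.dyc_eq_closedBall, mem_closedBall, dist_eq_norm]
          have : (0:ℝ) < 1 / 2 ^ n k := by positivity
          linarith, hvol k hk⟩
      have hU : (⋃ k : {k // k ∈ K}, (fun y => Mx F x k.1 *ᵥ y + bx f F x k.1) ''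
          deep v n (4 * c₀ k.1) k.1) = ⋃ k ∈ K, am f F (x k) '' deep v n (4 * c₀ k) k := by
        ext w
        constructor
        · intro hw
          obtain ⟨k, hk⟩ := mem_iUnion.1 hw
          rw [himg] at hk
          exact mem_iUnion₂.2 ⟨k.1, k.2, hk⟩
        · intro hw
          obtain ⟨k, hk, hwk⟩ := mem_iUnion₂.1 hw
          refine mem_iUnion.2 ⟨⟨k, hk⟩, ?_⟩
          rw [himg]
          exact hwk
      rw [hU]
      exact h1)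
    (fun k => ENNReal.rpow_ne_top_of_nonneg hp (by simp)) (fun k => ENNReal.ofReal_ne_top)
    (by
      refine le_trans ?_ hhigh
      have hcond : ∀ k : {k : {k // k ∈ K} //
          ENNReal.ofReal (M₀ * |(Mx F x k.1).det|) < ‖cl (F (x k.1))‖ₑ ^ p},
          k.1.1 ∈ K ∧ M₀ * |(cl (F (x k.1.1))).det| < ‖cl (F (x k.1.1))‖ ^ p := by
        intro k
        refine ⟨k.1.2, ?_⟩
        have h1 := k.2
        rw [det_Mx, ← ofReal_norm, ENNReal.ofReal_rpow_of_nonneg (norm_nonneg _) hp] at h1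
        exact lt_of_ofReal_lt h1
      let g : {k : {k // k ∈ K} //
          ENNReal.ofReal (M₀ * |(Mx F x k.1).det|) < ‖cl (F (x k.1))‖ₑ ^ p} →
          {k : Idx // k ∈ K ∧ M₀ * |(cl (F (x k))).det| < ‖cl (F (x k))‖ ^ p} :=
        fun k => ⟨k.1.1, hcond k⟩
      have hg : Function.Injective g := fun k l h => by
        have h1 : k.1.1 = l.1.1 := congrArg (fun q => q.1) h
        exact Subtype.ext (Subtype.ext h1)
      refine le_trans (ENNReal.tsum_le_tsum fun k => ?_) (ENNReal.tsum_comp_le_tsum_of_injective hg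
        fun k => ‖cl (F (x k.1))‖ₑ ^ p * volume (dyc v k.1.1 k.1.2))
      show ‖cl (F (x k.1.1))‖ₑ ^ p * volume (deep v n (3 * c₀ k.1.1) k.1.1) ≤
        ‖cl (F (x k.1.1))‖ₑ ^ p * volume (dyc v k.1.1.1 k.1.1.2)
      gcongr
      intro y hy
      have h2 := deep_mg v (by have := hc₀ k.1.1 k.1.2; linarith) (hn k.1.1 k.1.2) hy
      rw [H304.dyc_eq_closedBall, mem_closedBall, dist_eq_norm]
      have : (0:ℝ) < 1 / 2 ^ n k.1.1 := by positivity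
      linarith)
    (by
      refine le_trans (le_of_eq ?_) hZ
      refine tsum_congr fun k => ?_
      congr 2
      ext y
      simp only [mem_ofPred_eq, H490.am_eq f F x k.1 y])
    hLB
  refine ⟨W, δt, fun k => le_rfl, hQ, ?_, hdt'⟩
  intro k hk y hy
  have h1 := hdt k hk _ (mem_image_of_mem _ hy)
  refine ⟨h1.trans (min_le_left _ _), (h1.trans (min_le_right _ _)).trans_lt ?_⟩
  have h2 : (0:ℝ) < 1 / 2 ^ N k := by positivity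
  have e : (1:ℝ) / 2 / 2 ^ N k = 1 / 2 ^ N k / 2 := by ring
  rw [e]
  linarith

/-! ### The functions of the point -/

/-- the margins and the volumes, for functions `c₀`, `a` of the point -/
theorem margins {c₀ : V → ℝ} {a : V → ℕ}
    (hc₀ : ∀ y, 0 < c₀ y ∧ c₀ y ≤ 1 / 64) (hφ : ∀ y, 24 / 2 ^ a y + 24 * c₀ y ≤ φ y)
    (hκ : ∀ y, κ y ≤ c₀ y / 2 ^ a y) (hn : ∀ k, n k = k.1 + a (x k)) :
    (∀ k ∈ K, k.1 ≤ n k) ∧ (∀ k ∈ K, κ (x k) / 2 ^ k.1 ≤ 1 / 2 ^ n k) ∧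
    ∀ k ∈ K, volume (dyc v k.1 k.2 \ deep v n (4 * c₀ (x k)) k) ≤
      ENNReal.ofReal (φ (x k)) * volume (dyc v k.1 k.2) := by
  refine ⟨fun k _ => by rw [hn]; omega, fun k _ => ?_, fun k _ => ?_⟩
  · have h1 : κ (x k) ≤ 1 / 2 ^ a (x k) := (hκ _).trans (by
      have := (hc₀ (x k)).2
      gcongr
      linarith)
    rw [hn, pow_add]
    calc κ (x k) / 2 ^ k.1 ≤ 1 / 2 ^ a (x k) / 2 ^ k.1 := by gcongr
      _ = 1 / (2 ^ k.1 * 2 ^ a (x k)) := by rw [div_div, mul_comm]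
  · have h2 := hc₀ (x k)
    refine (H911.vol_deep v (hn k) (c := 4 * c₀ (x k)) (by linarith) (by linarith)).trans ?_
    gcongr
    linarith [hφ (x k)]

/-- **[TGT-USE], oracle form**: `c₀`, `a` are functions of the point, `n k = k.1 + a (x k)` -/
theorem tgt_useO {Cu : ℝ} {Lc : M3 → ℝ} {ε' εB : ℝ} {j : ℕ} {Zo : Set V}
    {XT : (V → ℝ) → Set Idx → ConHomeo Λ Λ → (V → ℝ) → Prop}
    (hp : 0 ≤ p) (hΛ : St.IsBoundedDomain Λ) (hf : St.IsHomeo Ω Λ f)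
    (B : Boxes p εB M₀ c τ₀ φ κ μ s Ω Λ f F v nn K x) {c₀ : V → ℝ} {a : V → ℕ}
    (hc₀ : ∀ y, 0 < c₀ y ∧ c₀ y ≤ 1 / 64) (hφ : ∀ y, 24 / 2 ^ a y + 24 * c₀ y ≤ φ y)
    (hκ : ∀ y, κ y ≤ c₀ y / 2 ^ a y) (hn : ∀ k, n k = k.1 + a (x k))
    (hhigh : ∑' k : {k : Idx // k ∈ K ∧ M₀ * |(cl (F (x k))).det| < ‖cl (F (x k))‖ ^ p},
      ‖cl (F (x k.1))‖ₑ ^ p * volume (dyc v k.1.1 k.1.2) ≤ ENNReal.ofReal ε)
    (hZ : ∑' k : {k // k ∈ K}, ‖cl (F (x k.1))‖ₑ ^ p *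
      volume {y | y ∈ deep v n (3 * c₀ (x k.1)) k.1 ∧ am f F (x k.1) y ∈ Zo} ≤ ENNReal.ofReal ε)
    (hT : ∀ (B : Type) (A : B → M3) (b : B → V) (D D' : B → Set V) (α W : B → ℝ≥0∞) (δt : V → ℝ),
        (∀ k, (A k).det ≠ 0) →
        (∀ k, IsCompact (D k) ∧ IsCompact (D' k) ∧ D' k ⊆ interior (D k)) →
        (∀ k, (fun x => A k *ᵥ x + b k) '' D k ⊆ Λ) →
        (∀ k l, k ≠ l → Disjoint ((fun x => A k *ᵥ x + b k) '' D k)
          ((fun x => A l *ᵥ x + b l) '' D l)) →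
        (∀ C ⊆ Λ, IsCompact C → {k | ((fun x => A k *ᵥ x + b k) '' D k ∩ C).Nonempty}.Finite) →
        ∫⁻ y in Λ \ ⋃ k, (fun x => A k *ᵥ x + b k) '' D' k, ENNReal.ofReal (1 / τ₀ y) ^ 3 ≤ c →
        (∀ k, α k ≠ ⊤) → (∀ k, W k ≠ ⊤) →
        ∑' k : {k : B // ENNReal.ofReal (M₀ * |(A k).det|) < α k}, α k.1 * volume (D k.1) ≤
          ENNReal.ofReal ε →
        ∑' k, α k * volume {x | x ∈ D k ∧ A k *ᵥ x + b k ∈ Zo} ≤ ENNReal.ofReal ε →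
        LBOn Λ δt →
        ∃ (ρ : V → ℝ) (J₀ J : Set Idx) (κ : Idx → B) (n : Idx → ℕ) (w : Idx → Fin 3 → ℤ)
          (Act Core CoreN : Set V) (Tt : ConHomeo Λ Λ) (r' : V → ℝ),
          Tgt Cu Lc Λ ε' (1 / 2 ^ j) A b D α W δt v ρ J₀ J κ n w Act Core CoreN Tt ∧
          LBOn Ω r' ∧ XT ρ J₀ Tt r')
    (N : Idx → ℕ) {ε₂ : ℝ} (hε₂ : 0 < ε₂) :
    ∃ (W : {k // k ∈ K} → ℝ≥0∞) (δt ρ : V → ℝ) (J₀ J : Set Idx) (κ' : Idx → {k // k ∈ K})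
      (nt : Idx → ℕ) (w : Idx → Fin 3 → ℤ) (Act Core CoreN : Set V) (Tt : ConHomeo Λ Λ)
      (r' : V → ℝ),
      (∀ k : {k // k ∈ K},
        ENNReal.ofReal ((Lc (Mx F x k) * (1 + ‖cl (F (x k))‖)) ^ p) ≤ W k) ∧
      Tgt Cu Lc Λ ε' (1 / 2 ^ j) (fun k : {k // k ∈ K} => Mx F x k.1)
        (fun k => bx f F x k.1) (fun k => deep v n (3 * c₀ (x k.1)) k.1)
        (fun k => ‖cl (F (x k.1))‖ₑ ^ p) W δt v ρ J₀ J κ' nt w Act Core CoreN Tt ∧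
      (∀ k ∈ K, ∀ y ∈ deep v n (2 * c₀ (x k)) k, δt (am f F (x k) y) ≤
        c₀ (x k) / 16 / 2 ^ n k ∧ δt (am f F (x k) y) < 1 / 2 ^ N k) ∧ (∀ y, δt y ≤ ε₂) ∧
      LBOn Ω r' ∧ XT ρ J₀ Tt r' := by
  obtain ⟨h1, h2, h3⟩ := margins (K := K) (v := v) hc₀ hφ hκ hn
  obtain ⟨W, δt, g1, ⟨ρ, J₀, J, κ', nt, w, Act, Core, CoreN, Tt, r', g2, g3, g4⟩, g5, g6⟩ :=
    tgt_useQ hp hΛ hf B h1 h2 (c₀ := fun k => c₀ (x k)) (fun k _ => (hc₀ _).1) h3 Lc hhigh hZ hT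
      N hε₂
  exact ⟨W, δt, ρ, J₀, J, κ', nt, w, Act, Core, CoreN, Tt, r', g1, g2, g5, g6, g3, g4⟩

/-- **[TGT-USE]** (#10643 (3)) -/
theorem tgt_use (hp : 0 ≤ p) (hΛ : St.IsBoundedDomain Λ) (hf : St.IsHomeo Ω Λ f)
    (B : Boxes p ε M₀ c τ₀ φ κ μ s Ω Λ f F v nn K x) {c₀ : V → ℝ} {a : V → ℕ}
    (hc₀ : ∀ y, 0 < c₀ y ∧ c₀ y ≤ 1 / 64) (hφ : ∀ y, 24 / 2 ^ a y + 24 * c₀ y ≤ φ y)
    (hκ : ∀ y, κ y ≤ c₀ y / 2 ^ a y) (hn : ∀ k, n k = k.1 + a (x k))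
    {Cu : ℝ} {Lc : M3 → ℝ}
    (hT : ∀ (B : Type) (A : B → M3) (b : B → V) (D D' : B → Set V) (α W : B → ℝ≥0∞) (δt : V → ℝ)
        (j : ℕ) (v : V),
        (∀ k, (A k).det ≠ 0) →
        (∀ k, IsCompact (D k) ∧ IsCompact (D' k) ∧ D' k ⊆ interior (D k)) →
        (∀ k, (fun x => A k *ᵥ x + b k) '' D k ⊆ Λ) →
        (∀ k l, k ≠ l → Disjoint ((fun x => A k *ᵥ x + b k) '' D k)
          ((fun x => A l *ᵥ x + b l) '' D l)) →
        (∀ C ⊆ Λ, IsCompact C → {k | ((fun x => A k *ᵥ x + b k) '' D k ∩ C).Nonempty}.Finite) →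
        ∫⁻ y in Λ \ ⋃ k, (fun x => A k *ᵥ x + b k) '' D' k, ENNReal.ofReal (1 / τ₀ y) ^ 3 ≤ c →
        (∀ k, α k ≠ ⊤) → (∀ k, W k ≠ ⊤) →
        ∑' k : {k : B // ENNReal.ofReal (M₀ * |(A k).det|) < α k}, α k.1 * volume (D k.1) ≤
          ENNReal.ofReal ε →
        LBOn Λ δt → 2 ≤ j →
        ∃ (ρ : V → ℝ) (J₀ J : Set Idx) (κ : Idx → B) (n : Idx → ℕ) (w : Idx → Fin 3 → ℤ)
          (Act Core CoreN : Set V) (Tt : ConHomeo Λ Λ),
          Tgt Cu Lc Λ (2 * ε) (1 / 2 ^ j) A b D α W δt v ρ J₀ J κ n w Act Core CoreN Tt)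
    (N : Idx → ℕ) {ε₂ : ℝ} (hε₂ : 0 < ε₂) {j : ℕ} (hj : 2 ≤ j) :
    ∃ (W : {k // k ∈ K} → ℝ≥0∞) (δt ρ : V → ℝ) (J₀ J : Set Idx) (κ' : Idx → {k // k ∈ K})
      (nt : Idx → ℕ) (w : Idx → Fin 3 → ℤ) (Act Core CoreN : Set V) (Tt : ConHomeo Λ Λ),
      (∀ k : {k // k ∈ K},
        ENNReal.ofReal ((Lc (Mx F x k) * (1 + ‖cl (F (x k))‖)) ^ p) ≤ W k) ∧
      Tgt Cu Lc Λ (2 * ε) (1 / 2 ^ j) (fun k : {k // k ∈ K} => Mx F x k.1)
        (fun k => bx f F x k.1) (fun k => deep v n (3 * c₀ (x k.1)) k.1)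
        (fun k => ‖cl (F (x k.1))‖ₑ ^ p) W δt v ρ J₀ J κ' nt w Act Core CoreN Tt ∧
      (∀ k ∈ K, ∀ y ∈ deep v n (2 * c₀ (x k)) k, δt (am f F (x k) y) ≤
        c₀ (x k) / 16 / 2 ^ n k ∧ δt (am f F (x k) y) < 1 / 2 ^ N k) ∧ ∀ y, δt y ≤ ε₂ := by
  obtain ⟨h1, h2, h3⟩ := margins (K := K) (v := v) hc₀ hφ hκ hn
  obtain ⟨W, δt, g1, ⟨ρ, J₀, J, κ', nt, w, Act, Core, CoreN, Tt, g2⟩, g5, g6⟩ :=
    tgt_useQ hp hΛ hf B h1 h2 (c₀ := fun k => c₀ (x k)) (fun k _ => (hc₀ _).1) h3 Lc B.high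
      (Zo := ∅) (by simp)
      (Q := fun B A b D α W δt => ∃ (ρ : V → ℝ) (J₀ J : Set Idx) (κ : Idx → B) (n : Idx → ℕ)
        (w : Idx → Fin 3 → ℤ) (Act Core CoreN : Set V) (Tt : ConHomeo Λ Λ),
        Tgt Cu Lc Λ (2 * ε) (1 / 2 ^ j) A b D α W δt v ρ J₀ J κ n w Act Core CoreN Tt)
      (fun B A b D D' α W δt a1 a2 a3 a4 a5 a6 a7 a8 a9 _ a11 =>
        hT B A b D D' α W δt j v a1 a2 a3 a4 a5 a6 a7 a8 a9 a11 hj) N hε₂
  exact ⟨W, δt, ρ, J₀, J, κ', nt, w, Act, Core, CoreN, Tt, g1, g2, g5, g6⟩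

end Vale.Agent.P073.H622
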