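import Vale.Agent.P073.H696.BSpec
import Vale.Agent.P073.H399.SGB4
import Vale.Agent.P073.H16.UnifE
import Vale.Agent.P073.H407.CellE
import Vale.Agent.P073.H333.NetInC
import Vale.Agent.P073.H333.EdgeT
import Vale.Agent.P073.PA285.Top
import Vale.Agent.P073.H194.Hold
import Vale.Agent.P073.H193.Refine
import Vale.Agent.P073.H989.NetInF

/-!
# P073, block B09, (L5a) [H0]: the conical homeomorphism which is fed to Round 1

`Boxes` (L1) and `Dom` (L3) and the net theorem `NetIn` give the homeomorphism `h₀` of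
`exists_h0`, in the form `NetB` (= `NetRes`, box by box).
-/

namespace Vale.Agent.P073.H622

open MeasureTheory Set Filter Topology Metric Vale.Agent.P073.St Vale.Agent.P073.AB
open Vale.Agent.P073.SQ (ev)
open Vale.Agent.P073.H696 (Boxes Dom HF am blk blkS)
open Vale.Agent.P073.H333 (NetIn NetRes GoodCell)
open Vale.Agent.P073.H194 (Gen)
open Vale.Agent.P073.H989 (NetInF netInF_of Near0 Kept0 exists_near0)
open _root_.P073.Net (dyc dyo)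
open _root_.P073 (ConHomeo)
open scoped ENNReal

/-! ### The constants -/

/-- **(NETIN)**, from a given conical map -/
theorem netInF : NetInF :=
  netInF_of (_root_.P073.Cell.specCellE_of
    (_root_.P073.H16.specUE fun X hX hXS ε hε => _root_.P073.H399.small_gb4 X hX hXS ε hε))

/-- the constant of `NetIn` -/
noncomputable def CN : ℝ → ℝ → ℝ := netInF.choose

/-- the offset `k₀` of `NetIn` -/
noncomputable def KN : ℝ → ℝ → ℕ → ℕ := netInF.choose_spec.choose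

/-- the closeness of `NetIn` -/
noncomputable def κN : ℝ → ℝ → ℕ → ℝ := netInF.choose_spec.choose_spec.choose

theorem CN_pos (θ M : ℝ) : 0 < CN θ M := netInF.choose_spec.choose_spec.choose_spec.1 θ M

theorem κN_pos (θ M : ℝ) (k₁ : ℕ) : 0 < κN θ M k₁ :=
  netInF.choose_spec.choose_spec.choose_spec.2.1 θ M k₁

theorem exists_netResF {Ω Λ : Set V} {f : V → V} {F : V → Mat} {v : V} {I J : Set Idx}
    {θ M : Idx → ℝ} {k₁ : Idx → ℕ} {A : Idx → V → V} {L : Idx → V →L[ℝ] V} {σ : V → ℝ}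
    {δ : Idx × Fin 3 → ℝ} (hΩ : St.IsBoundedDomain Ω) (hΛ : St.IsBoundedDomain Λ)
    (hI : Part Ω v I) (hr : RatGood v Ω f F)
    (hpos : ∀ q ∈ J, 0 < θ q ∧ 0 < M q ∧ 3 ≤ k₁ q)
    (hdisj : ∀ q ∈ J, ∀ q' ∈ J, q ≠ q' → Disjoint (dyo v q.1 q.2) (dyo v q'.1 q'.2))
    (hgood : ∀ q ∈ J, GoodCell (θ q) (M q) (κN (θ q) (M q) (k₁ q)) (k₁ q)
      (KN (θ q) (M q) (k₁ q)) v I f F q (A q) (L q))
    (hσc : ContinuousOn σ Ω) (hσ : ∀ x ∈ Ω, 0 < σ x) (hδ : ∀ e, 0 < δ e) :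
    ∃ (m : V → ℝ) (δ' : Idx × Fin 3 → ℝ), ContinuousOn m Ω ∧ (∀ x ∈ Ω, 0 < m x) ∧
      (∀ x ∈ Ω, m x ≤ σ x) ∧ (∀ e, 0 < δ' e) ∧ (∀ e, δ' e ≤ δ e) ∧
    ∀ h₀ : ConHomeo Ω Λ, Near0 v I f F Ω m δ' h₀.toFun →
    ∃ h : ConHomeo Ω Λ, NetRes v I J (fun q => CN (θ q) (M q)) k₁
      (fun q => KN (θ q) (M q) (k₁ q)) A f F Ω σ δ h.toFun ∧ Kept0 v I J k₁ Ω h₀.toFun h.toFun :=
  netInF.choose_spec.choose_spec.choose_spec.2.2 Ω Λ f F v I J θ M k₁ A L σ δ hΩ hΛ hI hr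
    hpos hdisj hgood hσc hσ hδ

/-! ### The result -/

/-- The conical homeomorphism `h` before Round 1, box by box: `n k` = generation of the cells,
`k₁ k`, `k₀ k` = offsets, `C k` = constant of the box `k`. -/
structure NetB (v : V) (I K : Set Idx) (x : Idx → V) (n k₁ k₀ : Idx → ℕ) (C : Idx → ℝ)
    (f : V → V) (F : V → Mat) (Ω : Set V) (σ : V → ℝ) (δ : Idx × Fin 3 → ℝ) (h : V → V) :
    Prop where
  /-- outside of the cells of the inner blocks -/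
  off : ∀ y ∈ Ω, (∀ k ∈ K, ∀ z ∈ blk k (n k), y ∉ interior (dyc v (n k) z)) →
    ‖h y - f y‖ ≤ σ y
  /-- in the layer of a cell of an inner block -/
  layer : ∀ k ∈ K, ∀ z ∈ blk k (n k), ∀ y ∈ dyc v (n k) z,
    y ∉ interior (boxB v (n k) (k₁ k) z) →
    ‖h y - am f F (x k) y‖ ≤ C k / 2 ^ (n k + k₁ k + k₀ k)
  /-- in the box `B` -/
  inn : ∀ k ∈ K, ∀ z ∈ blk k (n k), ∀ y ∈ boxB v (n k) (k₁ k) z,
    ‖h y - am f F (x k) y‖ ≤ C k / 2 ^ (n k + k₁ k)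
  /-- in the protected box -/
  box : ∀ k ∈ K, ∀ z ∈ blk k (n k), ∀ y ∈ boxR v (n k) (k₁ k) z, h y = am f F (x k) y
  /-- the edges of `I` outside of the boxes `B` -/
  edges : ∀ e : Idx × Fin 3, (∃ q ∈ I, EdgeOf e q) →
    (∀ k ∈ K, ∀ z ∈ blk k (n k), Disjoint (edge v e) (interior (boxB v (n k) (k₁ k) z))) →
    (∀ y ∈ edge v e, ‖h y - f y‖ ≤ δ e) ∧
    eInt v e (fun y => ENNReal.ofReal ‖lineDeriv ℝ h y (ev e.2) - cl (F y) (ev e.2)‖) ≤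
      ENNReal.ofReal (δ e)
  /-- the edges of generation `n k + k₁ k` in the box `B` -/
  gap : ∀ k ∈ K, ∀ z ∈ blk k (n k), ∀ e : Idx × Fin 3, e.1.1 = n k + k₁ k →
    edge v e ⊆ boxB v (n k) (k₁ k) z →
    eInt v e (fun y => ENNReal.ofReal ‖lineDeriv ℝ h y (ev e.2)‖) ≤
      ENNReal.ofReal (C k / 2 ^ (n k + k₁ k))

/-! ### Energies and lengths of the edges -/

theorem clapply_le (L : V →L[ℝ] V) (j : Fin 3) : ‖L (ev j)‖ ≤ ‖L‖ := by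
  have h := L.le_opNorm (ev j)
  rwa [S293.ev_norm, mul_one] at h

/-- from the energy to the length of an edge -/
theorem own_of_pow {p : ℝ} (hp : 1 ≤ p) {v : V} {e : Idx × Fin 3} {F : V → Mat}
    {L : V →L[ℝ] V} {κ κ' : ℝ} (hκ' : 0 ≤ κ') (hκ : κ ≤ κ' ^ p)
    (h : eInt v e (fun y => ‖cl (F y) - L‖ₑ ^ p) ≤ ENNReal.ofReal (κ / 2 ^ e.1.1)) :
    eInt v e (fun y => ENNReal.ofReal ‖cl (F y) (ev e.2) - L (ev e.2)‖) ≤
      ENNReal.ofReal (κ' / 2 ^ e.1.1) := by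
  have h1 : eInt v e (fun y => ENNReal.ofReal ‖cl (F y) (ev e.2) - L (ev e.2)‖) ≤
      eInt v e (fun y => ‖cl (F y) - L‖ₑ) := by
    refine S293.eInt_mono v e fun y => ?_
    rw [← ofReal_norm (cl (F y) - L)]
    exact ENNReal.ofReal_le_ofReal (clapply_le (cl (F y) - L) e.2)
  refine h1.trans ?_
  have hp0 : 0 < p := by linarith
  rw [← ENNReal.rpow_le_rpow_iff hp0]
  refine (H194.eInt_rpow_le hp v e _).trans ?_
  have hr : (0:ℝ) < 1 / 2 ^ e.1.1 := by positivity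
  calc ENNReal.ofReal ((1 / 2 ^ e.1.1) ^ (p - 1)) * eInt v e (fun y => ‖cl (F y) - L‖ₑ ^ p)
      ≤ ENNReal.ofReal ((1 / 2 ^ e.1.1) ^ (p - 1)) * ENNReal.ofReal (κ / 2 ^ e.1.1) := by gcongr
    _ = ENNReal.ofReal ((1 / 2 ^ e.1.1) ^ (p - 1) * (κ / 2 ^ e.1.1)) := by
        rw [ENNReal.ofReal_mul (by positivity)]
    _ ≤ ENNReal.ofReal ((κ' / 2 ^ e.1.1) ^ p) := by
        apply ENNReal.ofReal_le_ofReal
        have e1 : (κ' / 2 ^ e.1.1 : ℝ) ^ p = κ' ^ p * (1 / 2 ^ e.1.1) ^ p := by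
          rw [← Real.mul_rpow hκ' hr.le]
          congr 1
          ring
        have e2 : (1 / 2 ^ e.1.1 : ℝ) ^ (p - 1) * (1 / 2 ^ e.1.1) = (1 / 2 ^ e.1.1) ^ p := by
          conv_lhs => rw [← Real.rpow_one (1 / 2 ^ e.1.1 : ℝ), ← Real.rpow_mul hr.le, one_mul]
          rw [← Real.rpow_add hr]
          congr 1
          ring
        rw [e1, ← e2]
        calc (1 / 2 ^ e.1.1 : ℝ) ^ (p - 1) * (κ / 2 ^ e.1.1)
            = κ * ((1 / 2 ^ e.1.1 : ℝ) ^ (p - 1) * (1 / 2 ^ e.1.1)) := by ring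
          _ ≤ _ := by gcongr
    _ = ENNReal.ofReal (κ' / 2 ^ e.1.1) ^ p :=
        (ENNReal.ofReal_rpow_of_nonneg (by positivity) hp0.le).symm

/-- finite lengths -/
theorem edge_ne_top {p : ℝ} (hp : 1 ≤ p) {Ω : Set V} {F : V → Mat} {v : V} {nn : ℕ → ℕ}
    (hG : Gen v nn (HF p Ω F)) {e : Idx × Fin 3} (he : edge v e ⊆ Ω) :
    eInt v e (fun y => ENNReal.ofReal ‖cl (F y) (ev e.2)‖) ≠ ⊤ := by
  have h1 : eInt v e (fun y => ENNReal.ofReal ‖cl (F y) (ev e.2)‖) ≤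
      eInt v e (fun y => 1 + HF p Ω F y) := by
    refine H333.eInt_mono_on fun y hy => ?_
    have h2 : HF p Ω F y = ‖cl (F y)‖ₑ ^ p := by
      unfold HF
      rw [indicator_of_mem (he hy)]
    rw [h2]
    have h3 : ENNReal.ofReal ‖cl (F y) (ev e.2)‖ ≤ ‖cl (F y)‖ₑ := by
      rw [← ofReal_norm (cl (F y))]
      exact ENNReal.ofReal_le_ofReal (clapply_le _ _)
    refine h3.trans ?_
    rcases le_total ‖cl (F y)‖ₑ 1 with h4 | h4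
    · exact h4.trans le_self_add
    · refine le_trans ?_ le_add_self
      conv_lhs => rw [← ENNReal.rpow_one ‖cl (F y)‖ₑ]
      exact ENNReal.rpow_le_rpow_of_exponent_le h4 hp
  refine ne_top_of_le_ne_top ?_ h1
  have h5 : eInt v e (fun y => 1 + HF p Ω F y) =
      eInt v e (fun _ => 1) + eInt v e (HF p Ω F) := by
    unfold eInt
    rw [lintegral_add_left measurable_const, mul_add]
  rw [h5]
  refine ENNReal.add_ne_top.2 ⟨?_, hG.efin e⟩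
  rw [S293.eInt_const]
  simp

/-! ### The cells of the inner blocks -/

theorem blk_sub {k : Idx} {n : ℕ} (hn : k.1 ≤ n) {z : Fin 3 → ℤ} (hz : z ∈ blk k n) (v : V) :
    dyc v n z ⊆ dyc v k.1 k.2 := by
  refine _root_.P073.Net.NC.dyc_sub fun i => ?_
  obtain ⟨h1, h2⟩ := hz i
  have h3 : (2:ℤ) ^ (n - k.1) * k.2 i ≤ z i := by linarith
  have h4 : z i + 1 ≤ 2 ^ (n - k.1) * (k.2 i + 1) := by linarith
  have h5 : (2:ℝ) ^ n = 2 ^ (n - k.1) * 2 ^ k.1 := by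
    rw [← pow_add, Nat.sub_add_cancel hn]
  have h3' : (2:ℝ) ^ (n - k.1) * k.2 i ≤ z i := by exact_mod_cast h3
  have h4' : (z i : ℝ) + 1 ≤ 2 ^ (n - k.1) * (k.2 i + 1) := by exact_mod_cast h4
  have p1 : (0:ℝ) < 2 ^ k.1 := by positivity
  have p2 : (0:ℝ) < 2 ^ n := by positivity
  constructor
  · rw [div_le_div_iff₀ p1 p2, h5]
    nlinarith
  · rw [div_le_div_iff₀ p2 p1, h5]
    nlinarith

theorem dyo_nonempty (v : V) (n : ℕ) (z : Fin 3 → ℤ) : (dyo v n z).Nonempty := by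
  refine ⟨fun i => v i + (z i + 1 / 2) / 2 ^ n, fun i => ?_⟩
  have p2 : (0:ℝ) < 2 ^ n := by positivity
  constructor
  · show v i + (z i : ℝ) / 2 ^ n < v i + (z i + 1 / 2) / 2 ^ n
    gcongr
    linarith
  · show v i + ((z i : ℝ) + 1 / 2) / 2 ^ n < v i + (z i + 1) / 2 ^ n
    gcongr
    linarith

/-- the cells of the inner blocks -/
def JB (K : Set Idx) (n : Idx → ℕ) : Set Idx := {q | ∃ k ∈ K, q.1 = n k ∧ q.2 ∈ blk k (n k)}

open Classical in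
/-- the box of a cell -/
noncomputable def kk (K : Set Idx) (n : Idx → ℕ) (q : Idx) : Idx :=
  if h : ∃ k ∈ K, q.1 = n k ∧ q.2 ∈ blk k (n k) then h.choose else q

theorem kk_spec {K : Set Idx} {n : Idx → ℕ} {q : Idx} (hq : q ∈ JB K n) :
    kk K n q ∈ K ∧ q.1 = n (kk K n q) ∧ q.2 ∈ blk (kk K n q) (n (kk K n q)) := by
  have h : ∃ k ∈ K, q.1 = n k ∧ q.2 ∈ blk k (n k) := hq
  have h1 : kk K n q = h.choose := dif_pos h
  rw [h1]
  exact ⟨h.choose_spec.1, h.choose_spec.2⟩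

theorem kk_eq {K : Set Idx} {n : Idx → ℕ} {v : V}
    (hdisj : ∀ k ∈ K, ∀ k' ∈ K, k ≠ k' → Disjoint (dyo v k.1 k.2) (dyo v k'.1 k'.2))
    (hn : ∀ k ∈ K, k.1 ≤ n k) {k : Idx} (hk : k ∈ K) {z : Fin 3 → ℤ} (hz : z ∈ blk k (n k)) :
    kk K n (n k, z) = k := by
  obtain ⟨h1, h2, h3⟩ := kk_spec (K := K) (n := n) (q := (n k, z)) ⟨k, hk, rfl, hz⟩
  set k' := kk K n (n k, z) with hk'
  by_contra hne
  obtain ⟨y, hy⟩ := dyo_nonempty v (n k) z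
  have h4 : y ∈ dyo v k.1 k.2 := H193.dyo_sub (blk_sub (hn k hk) hz v) hy
  have h2' : n k = n k' := h2
  have h5 : y ∈ dyo v k'.1 k'.2 := by
    refine H193.dyo_sub (blk_sub (hn k' h1) h3 v) ?_
    rw [← h2']
    exact hy
  exact Set.disjoint_left.1 (hdisj k' h1 k hk hne) h5 h4

theorem JB_disj {K : Set Idx} {n : Idx → ℕ} {v : V}
    (hdisj : ∀ k ∈ K, ∀ k' ∈ K, k ≠ k' → Disjoint (dyo v k.1 k.2) (dyo v k'.1 k'.2))
    (hn : ∀ k ∈ K, k.1 ≤ n k) :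
    ∀ q ∈ JB K n, ∀ q' ∈ JB K n, q ≠ q' → Disjoint (dyo v q.1 q.2) (dyo v q'.1 q'.2) := by
  rintro ⟨m, z⟩ ⟨k, hk, h1, hz⟩ ⟨m', z'⟩ ⟨k', hk', h1', hz'⟩ hne
  simp only at h1 h1'
  subst h1 h1'
  by_cases hkk : k = k'
  · subst hkk
    have hzz : z ≠ z' := fun h => hne (by rw [h])
    exact S308.dyo_disj hzz
  · exact (hdisj k hk k' hk' hkk).mono (H193.dyo_sub (blk_sub (hn k hk) hz v))
      (H193.dyo_sub (blk_sub (hn k' hk') hz' v))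

/-! ### [H0] -/

/-- **[H0]** from a given conical map: it is changed in the cells of the inner blocks only -/
theorem exists_h0_from {p ε M₀ : ℝ} {c : ℝ≥0∞} {τ φ κ μ : V → ℝ} {s : V → ℕ} {Ω Λ : Set V}
    {f : V → V} {F : V → Mat} {v : V} {nn : ℕ → ℕ} {K : Set Idx} {x : Idx → V} (hp : 1 ≤ p)
    (hΩ : St.IsBoundedDomain Ω) (hΛ : St.IsBoundedDomain Λ)
    (B : Boxes p ε M₀ c τ φ κ μ s Ω Λ f F v nn K x) {I : Set Idx} (hI : Part Ω v I)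
    {n N : Idx → ℕ} (near : ∀ k ∈ K, ∀ z, (dyc v (N k) z ∩ blkS v k (n k)).Nonempty →
      ((N k, z) : Idx) ∈ I)
    (θ M : V → ℝ) (k₁ : V → ℕ) (hθ0 : ∀ k ∈ K, 0 < θ (x k)) (hM0 : ∀ k ∈ K, 0 < M (x k))
    (hθ : ∀ k ∈ K, ∀ w, θ (x k) * ‖w‖ ≤ ‖cl (F (x k)) w‖)
    (hM : ∀ k ∈ K, ∀ w, ‖cl (F (x k)) w‖ ≤ M (x k) * ‖w‖) (hk₁ : ∀ k ∈ K, 3 ≤ k₁ (x k))
    (hn : ∀ k ∈ K, k.1 ≤ n k) (hN : ∀ k ∈ K, N k = k.1 + s (x k))
    (hs : ∀ k ∈ K, N k = n k + k₁ (x k) + KN (θ (x k)) (M (x k)) (k₁ (x k)))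
    (hκ : ∀ k ∈ K, κ (x k) ≤ κN (θ (x k)) (M (x k)) (k₁ (x k)))
    (hκp : ∀ k ∈ K, κ (x k) ≤ κN (θ (x k)) (M (x k)) (k₁ (x k)) ^ p)
    {σ : V → ℝ} {δ : Idx × Fin 3 → ℝ}
    (hσc : ContinuousOn σ Ω) (hσ : ∀ y ∈ Ω, 0 < σ y) (hδ : ∀ e, 0 < δ e) :
    ∃ (m : V → ℝ) (δ' : Idx × Fin 3 → ℝ), ContinuousOn m Ω ∧ (∀ y ∈ Ω, 0 < m y) ∧
      (∀ y ∈ Ω, m y ≤ σ y) ∧ (∀ e, 0 < δ' e) ∧ (∀ e, δ' e ≤ δ e) ∧
    ∀ h₀ : ConHomeo Ω Λ, Near0 v I f F Ω m δ' h₀.toFun →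
    ∃ h : ConHomeo Ω Λ, NetB v I K x n (fun k => k₁ (x k))
      (fun k => KN (θ (x k)) (M (x k)) (k₁ (x k))) (fun k => CN (θ (x k)) (M (x k))) f F Ω σ δ
      h.toFun ∧
      ∀ y ∈ Ω, (∀ k ∈ K, ∀ z ∈ blk k (n k), y ∉ interior (dyc v (n k) z)) →
        h.toFun y = h₀.toFun y := by
  have hdisj := B.disj
  have hkk := fun {k} (hk : k ∈ K) {z} (hz : z ∈ blk k (n k)) =>
    kk_eq (v := v) hdisj hn hk hz
  have hgood : ∀ q ∈ JB K n, GoodCell (θ (x (kk K n q))) (M (x (kk K n q)))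
      (κN (θ (x (kk K n q))) (M (x (kk K n q))) (k₁ (x (kk K n q)))) (k₁ (x (kk K n q)))
      (KN (θ (x (kk K n q))) (M (x (kk K n q))) (k₁ (x (kk K n q)))) v I f F q
      (am f F (x (kk K n q))) (cl (F (x (kk K n q)))) := by
    rintro ⟨m, z⟩ ⟨k, hk, h1, hz⟩
    simp only at h1
    subst h1
    simp only [hkk hk hz]
    have hgen : n k + k₁ (x k) + KN (θ (x k)) (M (x k)) (k₁ (x k)) = k.1 + s (x k) := by
      rw [← hs k hk, hN k hk]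
    refine ⟨?_, hθ k hk, hM k hk, ?_, ?_, ?_⟩
    · intro y y'
      show f (x k) + cl (F (x k)) (y' - x k) - (f (x k) + cl (F (x k)) (y - x k)) = _
      rw [add_sub_add_left_eq_sub, ← map_sub]
      congr 1
      abel
    · intro z' hz'
      show ((n k + k₁ (x k) + KN (θ (x k)) (M (x k)) (k₁ (x k)), z') : Idx) ∈ I
      rw [← hs k hk]
      refine near k hk z' ?_
      obtain ⟨y, hy, hy'⟩ := hz'
      refine ⟨y, ?_, mem_biUnion hz hy'⟩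
      rw [hs k hk]
      exact hy
    · intro y hy
      have h1 := B.close k hk y (blk_sub (hn k hk) hz v hy)
      refine h1.trans ?_
      show _ ≤ κN (θ (x k)) (M (x k)) (k₁ (x k)) /
        2 ^ (n k + k₁ (x k) + KN (θ (x k)) (M (x k)) (k₁ (x k)))
      rw [hgen]
      gcongr
      exact hκ k hk
    · intro e he hed
      have he' : e.1.1 = k.1 + s (x k) := he.trans hgen
      have h1 := B.own k hk e he' (hed.trans (blk_sub (hn k hk) hz v))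
      have h2 := own_of_pow hp (κN_pos _ _ _).le (hκp k hk) h1
      refine h2.trans_eq ?_
      show _ = ENNReal.ofReal (κN (θ (x k)) (M (x k)) (k₁ (x k)) /
        2 ^ (n k + k₁ (x k) + KN (θ (x k)) (M (x k)) (k₁ (x k))))
      rw [hgen, he']
  obtain ⟨m, δ', m1, m2, m3, m4, m5, hex⟩ := exists_netResF (J := JB K n)
    (θ := fun q => θ (x (kk K n q)))
    (M := fun q => M (x (kk K n q))) (k₁ := fun q => k₁ (x (kk K n q)))
    (A := fun q => am f F (x (kk K n q))) (L := fun q => cl (F (x (kk K n q)))) (σ := σ) (δ := δ)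
    hΩ hΛ hI B.rat
    (fun q hq => ⟨hθ0 _ (kk_spec hq).1, hM0 _ (kk_spec hq).1, hk₁ _ (kk_spec hq).1⟩)
    (JB_disj hdisj hn) hgood hσc hσ hδ
  refine ⟨m, δ', m1, m2, m3, m4, m5, fun h₀ H₀ => ?_⟩
  obtain ⟨h, H, Hk⟩ := hex h₀ H₀
  · refine ⟨h, ⟨?_, ?_, ?_, ?_, ?_, ?_⟩, fun y hy hno => Hk.off y hy ?_⟩
    · intro y hy hy'
      refine H.off y hy ?_
      rintro ⟨m, z⟩ ⟨k, hk, h1, hz⟩
      simp only at h1
      subst h1
      exact hy' k hk z hz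
    · intro k hk z hz y hy hyB
      have h1 := H.layer (n k, z) ⟨k, hk, rfl, hz⟩ y hy
      simp only [hkk hk hz] at h1
      exact h1 hyB
    · intro k hk z hz y hy
      have h1 := H.inn (n k, z) ⟨k, hk, rfl, hz⟩ y
      simp only [hkk hk hz] at h1
      exact h1 hy
    · intro k hk z hz y hy
      have h1 := H.box (n k, z) ⟨k, hk, rfl, hz⟩ y
      simp only [hkk hk hz] at h1
      exact h1 hy
    · intro e he hd
      refine H.edges e he ?_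
      rintro ⟨m, z⟩ ⟨k, hk, h1, hz⟩
      simp only at h1
      subst h1
      simp only [hkk hk hz]
      exact hd k hk z hz
    · intro k hk z hz e he hd
      have h1 := H.gap (n k, z) ⟨k, hk, rfl, hz⟩ e
      simp only [hkk hk hz] at h1
      exact h1 he hd
    · rintro ⟨m, z⟩ ⟨k, hk, h1, hz⟩
      simp only at h1
      subst h1
      exact hno k hk z hz

/-- **[H0]** -/
theorem exists_h0 {p ε M₀ : ℝ} {c : ℝ≥0∞} {τ φ κ μ : V → ℝ} {s : V → ℕ} {Ω Λ : Set V}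
    {f : V → V} {F : V → Mat} {v : V} {nn : ℕ → ℕ} {K : Set Idx} {x : Idx → V} (hp : 1 ≤ p)
    (hΩ : St.IsBoundedDomain Ω) (hΛ : St.IsBoundedDomain Λ) (hf : St.IsHomeo Ω Λ f)
    (B : Boxes p ε M₀ c τ φ κ μ s Ω Λ f F v nn K x) {I : Set Idx} (hI : Part Ω v I)
    {n N : Idx → ℕ} (near : ∀ k ∈ K, ∀ z, (dyc v (N k) z ∩ blkS v k (n k)).Nonempty →
      ((N k, z) : Idx) ∈ I)
    (θ M : V → ℝ) (k₁ : V → ℕ) (hθ0 : ∀ k ∈ K, 0 < θ (x k)) (hM0 : ∀ k ∈ K, 0 < M (x k))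
    (hθ : ∀ k ∈ K, ∀ w, θ (x k) * ‖w‖ ≤ ‖cl (F (x k)) w‖)
    (hM : ∀ k ∈ K, ∀ w, ‖cl (F (x k)) w‖ ≤ M (x k) * ‖w‖) (hk₁ : ∀ k ∈ K, 3 ≤ k₁ (x k))
    (hn : ∀ k ∈ K, k.1 ≤ n k) (hN : ∀ k ∈ K, N k = k.1 + s (x k))
    (hs : ∀ k ∈ K, N k = n k + k₁ (x k) + KN (θ (x k)) (M (x k)) (k₁ (x k)))
    (hκ : ∀ k ∈ K, κ (x k) ≤ κN (θ (x k)) (M (x k)) (k₁ (x k)))
    (hκp : ∀ k ∈ K, κ (x k) ≤ κN (θ (x k)) (M (x k)) (k₁ (x k)) ^ p)
    {σ : V → ℝ} {δ : Idx × Fin 3 → ℝ}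
    (hσc : ContinuousOn σ Ω) (hσ : ∀ y ∈ Ω, 0 < σ y) (hδ : ∀ e, 0 < δ e) :
    ∃ h : ConHomeo Ω Λ, NetB v I K x n (fun k => k₁ (x k))
      (fun k => KN (θ (x k)) (M (x k)) (k₁ (x k))) (fun k => CN (θ (x k)) (M (x k))) f F Ω σ δ
      h.toFun := by
  obtain ⟨m, δ', m1, m2, -, m4, -, hex⟩ := exists_h0_from hp hΩ hΛ B hI near θ M k₁ hθ0 hM0 hθ hM
    hk₁ hn hN hs hκ hκp hσc hσ hδ
  obtain ⟨h₀, H₀⟩ := exists_near0 PA285.netOutN hΩ hΛ hf hI B.rat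
    (fun e ⟨q, hq, he⟩ => edge_ne_top hp B.gen ((Gr.edge_subset_dyc he).trans (hI.sub q hq)))
    m1 m2 m4
  obtain ⟨h, H, -⟩ := hex h₀ H₀
  exact ⟨h, H⟩

/-! ### [H0] with the constants of the matrix -/

/-- a lower bound of the matrix `F y` -/
noncomputable def thF (F : V → Mat) (y : V) : ℝ := by
  classical
  exact if h : ∃ θ > 0, ∀ w, θ * ‖w‖ ≤ ‖cl (F y) w‖ then h.choose else 1

/-- an upper bound of the matrix `F y` -/
noncomputable def MF (F : V → Mat) (y : V) : ℝ := ‖cl (F y)‖ + 1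

theorem thF_pos (F : V → Mat) (y : V) : 0 < thF F y := by
  unfold thF
  split_ifs with h
  · exact h.choose_spec.1
  · exact one_pos

theorem thF_le {F : V → Mat} {y : V} (h : (cl (F y)).det ≠ 0) (w : V) :
    thF F y * ‖w‖ ≤ ‖cl (F y) w‖ := by
  have h1 : ∃ θ > 0, ∀ w, θ * ‖w‖ ≤ ‖cl (F y) w‖ := by
    have hdet : IsUnit (LinearMap.det (cl (F y) : V →ₗ[ℝ] V)) := isUnit_iff_ne_zero.2 h
    set E : V ≃L[ℝ] V := (LinearEquiv.ofIsUnitDet (M := V) (f := (cl (F y) : V →ₗ[ℝ] V))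
      (v := Module.finBasis ℝ V) (v' := Module.finBasis ℝ V)
      (by rw [LinearMap.det_toMatrix]; exact hdet)).toContinuousLinearEquiv with hE
    have hEx : ∀ w, E w = cl (F y) w := fun w => rfl
    have hpos : (0:ℝ) < ‖(E.symm : V →L[ℝ] V)‖ + 1 := by positivity
    refine ⟨1 / (‖(E.symm : V →L[ℝ] V)‖ + 1), by positivity, fun w => ?_⟩
    have h2 : ‖w‖ ≤ ‖(E.symm : V →L[ℝ] V)‖ * ‖cl (F y) w‖ := by
      have h3 := (E.symm : V →L[ℝ] V).le_opNorm (E w)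
      rw [hEx] at h3
      have h4 : (E.symm : V →L[ℝ] V) (cl (F y) w) = w := by
        rw [← hEx]
        exact E.symm_apply_apply w
      rwa [h4] at h3
    rw [one_div, inv_mul_le_iff₀ hpos]
    nlinarith [norm_nonneg (cl (F y) w)]
  unfold thF
  rw [dif_pos h1]
  exact h1.choose_spec.2 w

theorem MF_pos (F : V → Mat) (y : V) : 0 < MF F y := by
  unfold MF
  positivity

theorem le_MF (F : V → Mat) (y w : V) : ‖cl (F y) w‖ ≤ MF F y * ‖w‖ := by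
  unfold MF
  nlinarith [(cl (F y)).le_opNorm w, norm_nonneg w]

/-- the constant of the box with centre `y` -/
noncomputable def CF (F : V → Mat) (y : V) : ℝ := CN (thF F y) (MF F y)

/-- the offset `k₀` of the box with centre `y` -/
noncomputable def kF (F : V → Mat) (k₁ : V → ℕ) (y : V) : ℕ := KN (thF F y) (MF F y) (k₁ y)

/-- the closeness of the box with centre `y` -/
noncomputable def κF (p : ℝ) (F : V → Mat) (k₁ : V → ℕ) (y : V) : ℝ :=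
  min (κN (thF F y) (MF F y) (k₁ y)) (κN (thF F y) (MF F y) (k₁ y) ^ p)

theorem CF_pos (F : V → Mat) (y : V) : 0 < CF F y := CN_pos _ _

theorem κF_pos (p : ℝ) (F : V → Mat) (k₁ : V → ℕ) (y : V) : 0 < κF p F k₁ y :=
  lt_min (κN_pos _ _ _) (Real.rpow_pos_of_pos (κN_pos _ _ _) _)

/-- **[H0]**, final form, from a given conical map -/
theorem exists_h0F_from {p ε M₀ : ℝ} {c : ℝ≥0∞} {τ φ κ μ : V → ℝ} {s : V → ℕ} {Ω Λ : Set V}
    {f : V → V} {F : V → Mat} {v : V} {nn : ℕ → ℕ} {K : Set Idx} {x : Idx → V} (hp : 1 ≤ p)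
    (hΩ : St.IsBoundedDomain Ω) (hΛ : St.IsBoundedDomain Λ)
    (B : Boxes p ε M₀ c τ φ κ μ s Ω Λ f F v nn K x) {I : Set Idx} (hI : Part Ω v I)
    {n N : Idx → ℕ} (near : ∀ k ∈ K, ∀ z, (dyc v (N k) z ∩ blkS v k (n k)).Nonempty →
      ((N k, z) : Idx) ∈ I)
    (k₁ : V → ℕ) (hk₁ : ∀ k ∈ K, 3 ≤ k₁ (x k)) (hn : ∀ k ∈ K, k.1 ≤ n k)
    (hN : ∀ k ∈ K, N k = k.1 + s (x k)) (hs : ∀ k ∈ K, N k = n k + k₁ (x k) + kF F k₁ (x k))
    (hκ : ∀ k ∈ K, κ (x k) ≤ κF p F k₁ (x k)) {σ : V → ℝ} {δ : Idx × Fin 3 → ℝ}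
    (hσc : ContinuousOn σ Ω) (hσ : ∀ y ∈ Ω, 0 < σ y) (hδ : ∀ e, 0 < δ e) :
    ∃ (m : V → ℝ) (δ' : Idx × Fin 3 → ℝ), ContinuousOn m Ω ∧ (∀ y ∈ Ω, 0 < m y) ∧
      (∀ y ∈ Ω, m y ≤ σ y) ∧ (∀ e, 0 < δ' e) ∧ (∀ e, δ' e ≤ δ e) ∧
    ∀ h₀ : ConHomeo Ω Λ, Near0 v I f F Ω m δ' h₀.toFun →
    ∃ h : ConHomeo Ω Λ, NetB v I K x n (fun k => k₁ (x k)) (fun k => kF F k₁ (x k))
      (fun k => CF F (x k)) f F Ω σ δ h.toFun ∧
      ∀ y ∈ Ω, (∀ k ∈ K, ∀ z ∈ blk k (n k), y ∉ interior (dyc v (n k) z)) →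
        h.toFun y = h₀.toFun y :=
  exists_h0_from hp hΩ hΛ B hI near (thF F) (MF F) k₁ (fun _ _ => thF_pos _ _)
    (fun _ _ => MF_pos _ _) (fun k hk => thF_le (B.pt k hk).2.2.1) (fun _ _ => le_MF _ _) hk₁ hn hN
    hs (fun k hk => (hκ k hk).trans (min_le_left _ _))
    (fun k hk => (hκ k hk).trans (min_le_right _ _)) hσc hσ hδ

/-- **[H0]**, final form: all constants are functions of the centre of the box, and depend only on
`F y` and `k₁ y` -/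
theorem exists_h0F {p ε M₀ : ℝ} {c : ℝ≥0∞} {τ φ κ μ : V → ℝ} {s : V → ℕ} {Ω Λ : Set V}
    {f : V → V} {F : V → Mat} {v : V} {nn : ℕ → ℕ} {K : Set Idx} {x : Idx → V} (hp : 1 ≤ p)
    (hΩ : St.IsBoundedDomain Ω) (hΛ : St.IsBoundedDomain Λ) (hf : St.IsHomeo Ω Λ f)
    (B : Boxes p ε M₀ c τ φ κ μ s Ω Λ f F v nn K x) {I : Set Idx} (hI : Part Ω v I)
    {n N : Idx → ℕ} (near : ∀ k ∈ K, ∀ z, (dyc v (N k) z ∩ blkS v k (n k)).Nonempty →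
      ((N k, z) : Idx) ∈ I)
    (k₁ : V → ℕ) (hk₁ : ∀ k ∈ K, 3 ≤ k₁ (x k)) (hn : ∀ k ∈ K, k.1 ≤ n k)
    (hN : ∀ k ∈ K, N k = k.1 + s (x k)) (hs : ∀ k ∈ K, N k = n k + k₁ (x k) + kF F k₁ (x k))
    (hκ : ∀ k ∈ K, κ (x k) ≤ κF p F k₁ (x k)) {σ : V → ℝ} {δ : Idx × Fin 3 → ℝ}
    (hσc : ContinuousOn σ Ω) (hσ : ∀ y ∈ Ω, 0 < σ y) (hδ : ∀ e, 0 < δ e) :
    ∃ h : ConHomeo Ω Λ, NetB v I K x n (fun k => k₁ (x k)) (fun k => kF F k₁ (x k))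
      (fun k => CF F (x k)) f F Ω σ δ h.toFun :=
  exists_h0 hp hΩ hΛ hf B hI near (thF F) (MF F) k₁ (fun _ _ => thF_pos _ _)
    (fun _ _ => MF_pos _ _) (fun k hk => thF_le (B.pt k hk).2.2.1) (fun _ _ => le_MF _ _) hk₁ hn hN
    hs (fun k hk => (hκ k hk).trans (min_le_left _ _))
    (fun k hk => (hκ k hk).trans (min_le_right _ _)) hσc hσ hδ

end Vale.Agent.P073.H622
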