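import Vale.Agent.P073.H333.PDspec
import Vale.Agent.P073.H687.KeptSum

/-!
# P073, block A15-PRE, [PD1]: the cells fill the cubes
-/

namespace Vale.Agent.P073.H622

open MeasureTheory Set Filter Topology Metric Vale.Agent.P073.St Vale.Agent.P073.AB
open _root_.P073.Net (dyc dyo IsTile SizeFn)
open Vale.Agent.P073.H73 (Bix)
open Vale.Agent.P073.H83 (CellsG gB mem_gB bixOf cell_bixOf bx Fam volume_fill_le volume_dyo_eq)
open scoped ENNReal

variable {θ M κ : ℝ} {m₁ n k₁ mt : ℕ} {Ω Λ : Set V} {f : V → V} {v : V}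
  {J : Finset (Fin 3 → ℤ)} {A : (Fin 3 → ℤ) → V → V} {L : (Fin 3 → ℤ) → V →L[ℝ] V}

/-- the cells fill one cube -/
theorem fill_one (H : CellsG θ M κ m₁ n k₁ Ω Λ f v J A L) {z : Fin 3 → ℤ} (hz : z ∈ J) :
    volume (dyc v n z \ ⋃ b ∈ {b | b ∈ gB H mt ∧ b.1 = z}, b.cell A) ≤
      ENNReal.ofReal (12 / 2 ^ k₁ + 24 * 2 ^ n / (θ * 2 ^ m₁) + 6 * 2 ^ m₁ / 2 ^ mt) *
        volume (dyo v n z) := by
  have hθ := H.θ0
  have h1 : dyc v n z \ ⋃ b ∈ {b | b ∈ gB H mt ∧ b.1 = z}, b.cell A ⊆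
      (dyc v n z \ boxR v n k₁ z) ∪
      (boxR v n k₁ z \ ⋃ d ∈ {d | (z, d) ∈ Fam 0 v n k₁ m₁ J A},
        A z ⁻¹' shrink 0 m₁ d (1 / 2 ^ mt)) := by
    rintro x ⟨hx, hx'⟩
    by_cases hxR : x ∈ boxR v n k₁ z
    · right
      refine ⟨hxR, fun hcon => hx' ?_⟩
      obtain ⟨d, hd, hxd⟩ := mem_iUnion₂.1 hcon
      refine mem_biUnion (x := bixOf m₁ mt (z, d)) ⟨(mem_gB H).2 ⟨(z, d), hd, rfl⟩, rfl⟩ ?_
      rw [cell_bixOf]
      exact hxd
    · exact Or.inl ⟨hx, hxR⟩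
  refine (measure_mono h1).trans ((measure_union_le _ _).trans ?_)
  have h2 := H687.volume_diff_le v n k₁ z
  have h3 := volume_fill_le H 0 hz (t := 1 / 2 ^ mt) (by positivity)
  refine (add_le_add h2 h3).trans (le_of_eq ?_)
  rw [volume_dyo_eq, ← ENNReal.ofReal_mul (by positivity),
    ← ENNReal.ofReal_add (by positivity) (by positivity),
    ← ENNReal.ofReal_add (by positivity) (by positivity)]
  congr 1
  field_simp
  ring

/-- **[PD1]** the cells fill the cubes -/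
theorem specFill : H333.SpecFill := by
  intro θ M κ' m₁ n k₁ mt Ω Λ f v J A L H
  have hm : ∀ z, MeasurableSet (dyo v n z) := fun z => by
    rw [← H194.interior_dyc]
    exact isOpen_interior.measurableSet
  calc ∑ z ∈ J, volume (dyc v n z \ ⋃ b ∈ {b | b ∈ gB H mt ∧ b.1 = z}, b.cell A)
      ≤ ∑ z ∈ J, ENNReal.ofReal (12 / 2 ^ k₁ + 24 * 2 ^ n / (θ * 2 ^ m₁) +
          6 * 2 ^ m₁ / 2 ^ mt) * volume (dyo v n z) :=
        Finset.sum_le_sum fun z hz => fill_one H hz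
    _ = ENNReal.ofReal (12 / 2 ^ k₁ + 24 * 2 ^ n / (θ * 2 ^ m₁) + 6 * 2 ^ m₁ / 2 ^ mt) *
          volume (⋃ z ∈ J, dyo v n z) := by
        rw [← Finset.mul_sum, measure_biUnion_finset (fun z _ z' _ hne => S308.dyo_disj hne)
          fun z _ => hm z]
    _ ≤ _ := by
        gcongr
        exact iUnion₂_subset fun z hz => P86.dyo_sub_dyc.trans (H.sub z hz)

end Vale.Agent.P073.H622
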