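import Vale.Agent.P073.H622.PD5
import Vale.Agent.P073.H333.PDspec

/-!
# P073, block A15-PRE, [PD5]: the literal form of the centres
-/

namespace Vale.Agent.P073.H622

open MeasureTheory Set Filter Topology Metric Vale.Agent.P073.St Vale.Agent.P073.AB
open _root_.P073.Net (dyc dyo IsTile SizeFn)
open Vale.Agent.P073.H194 (GoodC ae_goodC)
open Vale.Agent.P073.H83 (CellsG gB grho)
open scoped ENNReal

/-- **[PD5]** -/
theorem specCtrs {p : ℝ} (hp : 2 < p) (hp3 : p < 3) : H333.SpecCtrs p := by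
  refine ⟨CC p, CC_ne_top (by linarith) hp3, ?_⟩
  intro θ M κ' r₁ m₁ n k₁ k₀ mt m' Ω Λ f G v nn J A L H hΩ hΛ hf hnn hF haff hm2 hn _ _ hr0 hr1
    hthin hG hfin hGB hB1 hpl
  have hinj : ∀ z ∈ J, Function.Injective (L z) := by
    intro z hz x y hxy
    have h1 := H.below z hz (x - y)
    rw [map_sub, hxy, sub_self, norm_zero] at h1
    have h2 : ‖x - y‖ ≤ 0 := by
      by_contra hcon
      have := mul_pos H.θ0 (not_le.1 hcon)
      linarith
    exact sub_eq_zero.1 (norm_le_zero_iff.1 h2)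
  have hgood : ∀ᵐ c : V, GoodC p Ω f G v nn J A c :=
    ae_goodC hp3 H.oΩ H.oΛ hf hG hfin hnn hGB hB1 hpl haff hinj
  have h2m : (0 : ℝ) < 2 ^ m₁ := by positivity
  have e1 : r₁ * 2 ^ m₁ / 2 ^ m₁ = r₁ := mul_div_cancel_right₀ _ h2m.ne'
  have ha1 : r₁ * 2 ^ m₁ ≤ 1 / 2 := by
    rw [le_div_iff₀ h2m] at hr1
    exact hr1
  have hthin' : H83.tauC θ M * (1 / 2 ^ (n + k₁) + r₁ * 2 ^ m₁ / 2 ^ m₁ / θ) ≤ 1 / 2 ^ m₁ := by
    rw [e1]; exact hthin
  obtain ⟨c, hc1, hc2, hc3, hc4⟩ := exists_ctrs (k₀ := k₀) H hF (by linarith) hm2 hn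
    (a₁ := r₁ * 2 ^ m₁) (by positivity) ha1 hthin' hG hgood mt m'
  refine ⟨c, hc1, ?_, hc3, hc4.trans ?_⟩
  · intro m zz ht z hz x hx hxR
    have := hc2 m zz ht z hz x hx hxR
    rwa [e1] at this
  · gcongr with z hz
    exact (H333.boxR_sub_dyo _ _ _ _).trans P86.dyo_sub_dyc

end Vale.Agent.P073.H622
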