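import Vale.Agent.P073.H622.H0
import Vale.Agent.P073.H803.Blk4
import Vale.Agent.P073.SMV.Glue

/-!
# P073, block B09, [BLKM]: the metric hypotheses of Round 1

`exists_sigma`: the tolerance `σ`; `blkM`: the structure `H803.BlkM` for the homeomorphism of
`exists_h0`.
-/

namespace Vale.Agent.P073.H622

open MeasureTheory Set Filter Topology Metric Vale.Agent.P073.St Vale.Agent.P073.AB
open Vale.Agent.P073.H73 (ctr)
open Vale.Agent.P073.H696 (Boxes am blk blkS)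
open Vale.Agent.P073.H304 (af afi af_afi afi_af dyc_eq_closedBall)
open Vale.Agent.P073.H803 (BlkM rB)
open Vale.Agent.P073.H726 (LBOn)
open Vale.Agent.P073.H989 (Near0 exists_near0)
open _root_.P073.Net (dyc dyo)
open _root_.P073 (ConHomeo)
open scoped ENNReal

/-! ### Finitely many local conditions -/

theorem exists_pos_finite {X ι : Type*} {l : Filter X} {S : Set ι} (hS : S.Finite)
    {Q : ι → X → ℝ → Prop} (mono : ∀ i y m m', m' ≤ m → Q i y m → Q i y m')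
    (h : ∀ i ∈ S, ∃ m > 0, ∀ᶠ y in l, Q i y m) : ∃ m > 0, ∀ᶠ y in l, ∀ i ∈ S, Q i y m := by
  induction S, hS using Set.Finite.induction_on with
  | empty => exact ⟨1, one_pos, Eventually.of_forall fun _ _ h => h.elim⟩
  | @insert a S ha hS ih =>
    obtain ⟨m, hm, h1⟩ := ih fun i hi => h i (mem_insert_of_mem _ hi)
    obtain ⟨m', hm', h2⟩ := h a (mem_insert _ _)
    refine ⟨min m m', lt_min hm hm', ?_⟩
    filter_upwards [h1, h2] with y h1 h2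
    rintro i (rfl | hi)
    · exact mono _ _ _ _ (min_le_right _ _) h2
    · exact mono _ _ _ _ (min_le_left _ _) (h1 i hi)

theorem continuous_am (f : V → V) (F : V → Mat) (x : V) : Continuous (am f F x) := by
  show Continuous fun y => f x + cl (F x) (y - x)
  fun_prop

variable {p ε M₀ : ℝ} {c : ℝ≥0∞} {τ₀ φ κ μ : V → ℝ} {s : V → ℕ} {Ω Λ : Set V}
  {f : V → V} {F : V → Mat} {v : V} {nn : ℕ → ℕ} {K I : Set Idx} {x : Idx → V}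
  {n k₁ k₀ : Idx → ℕ} {C : Idx → ℝ} {σ : V → ℝ} {δ : Idx × Fin 3 → ℝ} {h : V → V}

/-- the image of the cube of Round 1 is in the image of the open box -/
theorem img_of (B : Boxes p ε M₀ c τ₀ φ κ μ s Ω Λ f F v nn K x)
    (hκ : ∀ k ∈ K, κ (x k) / 2 ^ k.1 ≤ 1 / 2 ^ n k) {k : Idx} (hk : k ∈ K) :
    am f F (x k) '' closedBall (ctr v k.1 k.2) (rB n k) ⊆ f '' dyo v k.1 k.2 := by
  refine (image_mono ?_).trans (B.img k hk)
  refine closedBall_subset_closedBall ?_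
  unfold rB H911.hs
  have h1 := hκ k hk
  have e1 : (1 - κ (x k)) * (1 / 2 ^ k.1 / 2) = 1 / 2 / 2 ^ k.1 - κ (x k) / 2 ^ k.1 / 2 := by ring
  have e2 : (1:ℝ) / 2 / 2 ^ n k = 1 / 2 ^ n k / 2 := by ring
  rw [e1, e2]
  linarith

/-- **the tolerance** -/
theorem exists_sigma (hΩ : IsOpen Ω) (hΛ : IsOpen Λ) (hf : St.IsHomeo Ω Λ f)
    (B : Boxes p ε M₀ c τ₀ φ κ μ s Ω Λ f F v nn K x)
    (hκ : ∀ k ∈ K, κ (x k) / 2 ^ k.1 ≤ 1 / 2 ^ n k) {σ₀ : Idx → ℝ} (hσ₀ : ∀ k ∈ K, 0 < σ₀ k)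
    {r : V → ℝ} (hr : LBOn Ω r) :
    ∃ σ : V → ℝ, ContinuousOn σ Ω ∧ (∀ y ∈ Ω, 0 < σ y) ∧
      (∀ k ∈ K, ∀ y ∈ Ω, y ∉ dyo v k.1 k.2 → ∀ u ∈ closedBall (ctr v k.1 k.2) (rB n k),
        σ y < ‖f y - am f F (x k) u‖) ∧
      (∀ k ∈ K, ∀ y ∈ dyc v k.1 k.2, σ y ≤ σ₀ k) ∧ ∀ y ∈ Ω, σ y ≤ r y := by
  obtain ⟨g, hinv, hfc, hgc⟩ := hf
  have hinj : ∀ y ∈ Ω, ∀ y' ∈ Ω, f y = f y' → y = y' := by
    intro y hy y' hy' h
    rw [← (hinv.1 y hy).2, h, (hinv.1 y' hy').2]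
  have hmono : ∀ y m m', 0 < m' → m' ≤ m → ((∀ k ∈ K, y ∉ dyo v k.1 k.2 →
      ∀ u ∈ closedBall (ctr v k.1 k.2) (rB n k), m < ‖f y - am f F (x k) u‖) ∧
      (∀ k ∈ K, y ∈ dyc v k.1 k.2 → m ≤ σ₀ k) ∧ m ≤ r y) → ((∀ k ∈ K, y ∉ dyo v k.1 k.2 →
      ∀ u ∈ closedBall (ctr v k.1 k.2) (rB n k), m' < ‖f y - am f F (x k) u‖) ∧
      (∀ k ∈ K, y ∈ dyc v k.1 k.2 → m' ≤ σ₀ k) ∧ m' ≤ r y) := by
    rintro y m m' hm' hle ⟨h1, h2, h3⟩
    exact ⟨fun k hk hy u hu => hle.trans_lt (h1 k hk hy u hu),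
      fun k hk hy => hle.trans (h2 k hk hy), hle.trans h3⟩
  have hloc : ∀ y₀ ∈ Ω, ∃ m > 0, ∀ᶠ y in 𝓝[Ω] y₀, ((∀ k ∈ K, y ∉ dyo v k.1 k.2 →
      ∀ u ∈ closedBall (ctr v k.1 k.2) (rB n k), m < ‖f y - am f F (x k) u‖) ∧
      (∀ k ∈ K, y ∈ dyc v k.1 k.2 → m ≤ σ₀ k) ∧ m ≤ r y) := by
    intro y₀ hy₀
    -- a compact neighbourhood
    obtain ⟨ρ₀, hρ₀, hsub⟩ := Metric.isOpen_iff.1 hΩ y₀ hy₀
    set C := closedBall y₀ (ρ₀ / 2) with hC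
    have hCΩ : C ⊆ Ω := (closedBall_subset_ball (by linarith)).trans hsub
    have hCc : IsCompact C := isCompact_closedBall _ _
    have hCn : C ∈ 𝓝 y₀ := closedBall_mem_nhds _ (by linarith)
    have hfin := B.fin C hCΩ hCc
    -- the image is a neighbourhood of the image
    have himg : f '' C ∈ 𝓝 (f y₀) := by
      have h1 : ContinuousAt g (f y₀) := hgc.continuousAt (hΛ.mem_nhds (hinv.1 y₀ hy₀).1)
      have h2 : g ⁻¹' C ∈ 𝓝 (f y₀) := h1 (by rw [(hinv.1 y₀ hy₀).2]; exact hCn)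
      filter_upwards [h2, hΛ.mem_nhds (hinv.1 y₀ hy₀).1] with w hw hwΛ
      exact ⟨g w, hw, (hinv.2 w hwΛ).2⟩
    obtain ⟨ρ, hρ, hρsub⟩ := Metric.nhds_basis_closedBall.mem_iff.1 himg
    have hfy : ContinuousAt f y₀ := hfc.continuousAt (hΩ.mem_nhds hy₀)
    have hev1 : ∀ᶠ y in 𝓝[Ω] y₀, ‖f y - f y₀‖ < ρ / 2 := by
      have := hfy.eventually (Metric.ball_mem_nhds (f y₀) (half_pos hρ))
      filter_upwards [nhdsWithin_le_nhds this] with y hy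
      rwa [← dist_eq_norm]
    -- the boxes which meet `C`
    obtain ⟨m₁, hm₁, h1⟩ := exists_pos_finite (l := 𝓝[Ω] y₀) hfin
      (Q := fun k y m => (y ∉ dyo v k.1 k.2 → ∀ u ∈ closedBall (ctr v k.1 k.2) (rB n k),
        m < ‖f y - am f F (x k) u‖) ∧ (y ∈ dyc v k.1 k.2 → m ≤ σ₀ k))
      (fun k y m m' hle h => ⟨fun hy u hu => hle.trans_lt (h.1 hy u hu),
        fun hy => hle.trans (h.2 hy)⟩) (by
      rintro k ⟨hk, -⟩
      by_cases hy : y₀ ∈ dyo v k.1 k.2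
      · refine ⟨σ₀ k, hσ₀ k hk, ?_⟩
        have h2 : dyo v k.1 k.2 ∈ 𝓝 y₀ := by
          rw [← _root_.P073.Gauge.C110.interior_dyc] at hy ⊢
          exact isOpen_interior.mem_nhds hy
        filter_upwards [nhdsWithin_le_nhds h2] with y hy'
        exact ⟨fun hn => absurd hy' hn, fun _ => le_rfl⟩
      · have hPc : IsCompact (am f F (x k) '' closedBall (ctr v k.1 k.2) (rB n k)) :=
          (isCompact_closedBall _ _).image (continuous_am f F (x k))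
        have hn : f y₀ ∉ am f F (x k) '' closedBall (ctr v k.1 k.2) (rB n k) := by
          intro hcon
          obtain ⟨u', hu', hfu⟩ := img_of B hκ hk hcon
          have : u' = y₀ := hinj u' ((B.pt k hk).2.1 (P86.dyo_sub_dyc hu')) y₀ hy₀ hfu
          exact hy (this ▸ hu')
        obtain ⟨ρ', hρ', hρ'sub⟩ := Metric.nhds_basis_ball.mem_iff.1
          (hPc.isClosed.isOpen_compl.mem_nhds hn)
        refine ⟨min (ρ' / 2) (σ₀ k), lt_min (by linarith) (hσ₀ k hk), ?_⟩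
        have h3 := hfy.eventually (Metric.ball_mem_nhds (f y₀) (half_pos hρ'))
        filter_upwards [nhdsWithin_le_nhds h3] with y hy'
        rw [dist_eq_norm] at hy'
        refine ⟨fun _ u hu => ?_, fun _ => min_le_right _ _⟩
        refine (min_le_left _ _).trans_lt ?_
        by_contra hcon
        push Not at hcon
        have h4 : am f F (x k) u ∈ ball (f y₀) ρ' := by
          rw [mem_ball, dist_eq_norm]
          calc ‖am f F (x k) u - f y₀‖ = ‖(f y - f y₀) - (f y - am f F (x k) u)‖ := by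
                congr 1; abel
            _ ≤ ‖f y - f y₀‖ + ‖f y - am f F (x k) u‖ := norm_sub_le _ _
            _ < ρ' := by linarith
        exact hρ'sub h4 (mem_image_of_mem _ hu))
    obtain ⟨cr, hcr, h5⟩ := hr y₀ hy₀
    refine ⟨min (min m₁ (ρ / 2)) cr, lt_min (lt_min hm₁ (by linarith)) hcr, ?_⟩
    filter_upwards [h1, hev1, nhdsWithin_le_nhds h5, self_mem_nhdsWithin,
      nhdsWithin_le_nhds hCn] with y h1 h2 h5 hyΩ hyC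
    refine ⟨fun k hk hy u hu => ?_, fun k hk hy => ?_, (min_le_right _ _).trans (h5 hyΩ)⟩
    · by_cases hkC : (dyc v k.1 k.2 ∩ C).Nonempty
      · exact ((min_le_left _ _).trans (min_le_left _ _)).trans_lt ((h1 k ⟨hk, hkC⟩).1 hy u hu)
      · refine ((min_le_left _ _).trans (min_le_right _ _)).trans_lt ?_
        by_contra hcon
        push Not at hcon
        have h4 : am f F (x k) u ∈ closedBall (f y₀) ρ := by
          rw [mem_closedBall, dist_eq_norm]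
          calc ‖am f F (x k) u - f y₀‖ = ‖(f y - f y₀) - (f y - am f F (x k) u)‖ := by
                congr 1; abel
            _ ≤ ‖f y - f y₀‖ + ‖f y - am f F (x k) u‖ := norm_sub_le _ _
            _ ≤ ρ := by linarith
        obtain ⟨w, hwC, hw⟩ := hρsub h4
        obtain ⟨u', hu', hfu⟩ := img_of B hκ hk (mem_image_of_mem _ hu)
        have : w = u' := hinj w (hCΩ hwC) u' ((B.pt k hk).2.1 (P86.dyo_sub_dyc hu'))
          (hw.trans hfu.symm)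
        exact hkC ⟨u', P86.dyo_sub_dyc hu', this ▸ hwC⟩
    · have hkC : (dyc v k.1 k.2 ∩ C).Nonempty := ⟨y, hy, hyC⟩
      exact ((min_le_left _ _).trans (min_le_left _ _)).trans ((h1 k ⟨hk, hkC⟩).2 hy)
  obtain ⟨σ, hc, hσ⟩ := SMV.exists_cont_radius (Ω := Ω) hmono hloc
  exact ⟨σ, hc, fun y hy => (hσ y hy).1, fun k hk y hy h => (hσ y hy).2.1 k hk h,
    fun k hk y hyk => (hσ y ((B.pt k hk).2.1 hyk)).2.2.1 k hk hyk,
    fun y hy => (hσ y hy).2.2.2⟩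

/-! ### The metric hypotheses -/

/-- the cells are at distance at least one cell from the frontier of the box -/
theorem blk_mg {k : Idx} {m : ℕ} (hm : k.1 ≤ m) {z : Fin 3 → ℤ} (hz : z ∈ blk k m) {y : V}
    (hy : y ∈ dyc v m z) : ‖y - ctr v k.1 k.2‖ ≤ 1 / 2 / 2 ^ k.1 - 1 / 2 ^ m := by
  have p1 : (0:ℝ) < 2 ^ k.1 := by positivity
  have p2 : (0:ℝ) < 2 ^ m := by positivity
  have h5 : (2:ℝ) ^ m = 2 ^ (m - k.1) * 2 ^ k.1 := by rw [← pow_add, Nat.sub_add_cancel hm]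
  have p3 : (0:ℝ) < 2 ^ (m - k.1) := by positivity
  have key : ∀ i, |(y - ctr v k.1 k.2) i| ≤ 1 / 2 / 2 ^ k.1 - 1 / 2 ^ m := by
    intro i
    obtain ⟨h1, h2⟩ := hz i
    have h3 : (2:ℤ) ^ (m - k.1) * k.2 i + 1 ≤ z i := by linarith
    have h4 : z i + 2 ≤ 2 ^ (m - k.1) * (k.2 i + 1) := by linarith
    have h3' : (2:ℝ) ^ (m - k.1) * k.2 i + 1 ≤ z i := by exact_mod_cast h3
    have h4' : (z i : ℝ) + 2 ≤ 2 ^ (m - k.1) * (k.2 i + 1) := by exact_mod_cast h4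
    have h6 : (k.2 i : ℝ) / 2 ^ k.1 + 1 / 2 ^ m ≤ z i / 2 ^ m := by
      have e : (k.2 i : ℝ) / 2 ^ k.1 + 1 / 2 ^ m = (2 ^ (m - k.1) * k.2 i + 1) / 2 ^ m := by
        rw [add_div]
        congr 1
        rw [h5]
        field_simp
      rw [e]
      gcongr
    have h7 : ((z i : ℝ) + 1) / 2 ^ m + 1 / 2 ^ m ≤ (k.2 i + 1) / 2 ^ k.1 := by
      have e : ((k.2 i : ℝ) + 1) / 2 ^ k.1 = (2 ^ (m - k.1) * (k.2 i + 1)) / 2 ^ m := by
        rw [h5]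
        field_simp
      rw [e, ← add_div]
      gcongr
      linarith
    have hyi := hy i
    have e1 : (y - ctr v k.1 k.2) i = y i - (v i + (k.2 i + 1 / 2) / 2 ^ k.1) := rfl
    have e2 : ((k.2 i : ℝ) + 1 / 2) / 2 ^ k.1 = k.2 i / 2 ^ k.1 + 1 / 2 / 2 ^ k.1 := add_div _ _ _
    have e3 : ((k.2 i : ℝ) + 1) / 2 ^ k.1 = k.2 i / 2 ^ k.1 + 1 / 2 / 2 ^ k.1 + 1 / 2 / 2 ^ k.1 := by
      rw [add_div]; ring
    rw [e3] at h7
    rw [e1, e2, abs_le]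
    constructor <;> linarith [hyi.1, hyi.2]
  have h0 : 0 ≤ 1 / 2 / 2 ^ k.1 - (1:ℝ) / 2 ^ m := (abs_nonneg _).trans (key 0)
  exact (pi_norm_le_iff_of_nonneg h0).2 key

theorem disj_dyc_dyo {k k' : Idx} (hd : Disjoint (dyo v k.1 k.2) (dyo v k'.1 k'.2)) :
    Disjoint (dyc v k.1 k.2) (dyo v k'.1 k'.2) := by
  have ho : IsOpen (dyo v k'.1 k'.2) := by
    rw [← _root_.P073.Gauge.C110.interior_dyc]
    exact isOpen_interior
  rw [← H333.closure_dyo]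
  exact hd.closure_left ho

namespace NetB

variable (N : NetB v I K x n k₁ k₀ C f F Ω σ δ h)

include N

/-- in the cells of the inner blocks -/
theorem cell {k : Idx} (hk : k ∈ K) (hC : 0 ≤ C k) {z : Fin 3 → ℤ} (hz : z ∈ blk k (n k)) {y : V}
    (hy : y ∈ dyc v (n k) z) : ‖h y - am f F (x k) y‖ ≤ C k / 2 ^ (n k + k₁ k) := by
  by_cases hyB : y ∈ boxB v (n k) (k₁ k) z
  · exact N.inn k hk z hz y hyB
  · refine (N.layer k hk z hz y hy fun hcon => hyB (interior_subset hcon)).trans ?_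
    refine div_le_div_of_nonneg_left hC (by positivity) ?_
    exact pow_le_pow_right₀ (by norm_num) (by omega)

/-- in the closed box -/
theorem box_close (B : Boxes p ε M₀ c τ₀ φ κ μ s Ω Λ f F v nn K x) (hn : ∀ k ∈ K, k.1 ≤ n k)
    {k : Idx} (hk : k ∈ K) (hC : 0 ≤ C k) {σ₁ : ℝ} (hσ : ∀ y ∈ dyc v k.1 k.2, σ y ≤ σ₁) {y : V}
    (hy : y ∈ dyc v k.1 k.2) : ‖h y - am f F (x k) y‖ ≤
      max (C k / 2 ^ (n k + k₁ k)) (σ₁ + κ (x k) / 2 ^ (k.1 + s (x k))) := by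
  by_cases hcell : ∃ z ∈ blk k (n k), y ∈ interior (dyc v (n k) z)
  · obtain ⟨z, hz, hyz⟩ := hcell
    exact (N.cell hk hC hz (interior_subset hyz)).trans (le_max_left _ _)
  · push Not at hcell
    refine le_trans ?_ (le_max_right _ _)
    have h1 : ‖h y - f y‖ ≤ σ y := by
      refine N.off y ((B.pt k hk).2.1 hy) fun k' hk' z hz hyz => ?_
      by_cases hkk : k = k'
      · subst hkk
        exact hcell z hz hyz
      · rw [_root_.P073.Gauge.C110.interior_dyc] at hyz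
        have h2 : y ∈ dyo v k'.1 k'.2 := H193.dyo_sub (blk_sub (hn k' hk') hz v) hyz
        exact Set.disjoint_left.1 (disj_dyc_dyo (B.disj k hk k' hk' hkk)) hy h2
    calc ‖h y - am f F (x k) y‖ = ‖(h y - f y) + (f y - am f F (x k) y)‖ := by congr 1; abel
      _ ≤ ‖h y - f y‖ + ‖f y - am f F (x k) y‖ := norm_add_le _ _
      _ ≤ σ₁ + κ (x k) / 2 ^ (k.1 + s (x k)) :=
        add_le_add (h1.trans (hσ y hy)) (B.close k hk y hy)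

end NetB

/-- **[BLKM]** -/
theorem blkM (hΛ : IsOpen Λ) (hf : St.IsHomeo Ω Λ f)
    (B : Boxes p ε M₀ c τ₀ φ κ μ s Ω Λ f F v nn K x)
    (N : NetB v I K x n k₁ k₀ C f F Ω σ δ h) (hC : ∀ k ∈ K, 0 ≤ C k)
    {L : Idx → V ≃L[ℝ] V} {b : Idx → V} (hL : ∀ k ∈ K, ∀ y, af (L k) (b k) y = am f F (x k) y)
    {θ : Idx → ℝ} (hθ0 : ∀ k ∈ K, 0 < θ k) (hθ : ∀ k ∈ K, ∀ w, θ k * ‖w‖ ≤ ‖L k w‖)
    {c₀ τ : Idx → ℝ} {J : ℝ → ℕ} {Δ : ℝ → ℝ} {σ₀ : Idx → ℝ}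
    (hσ1 : ∀ k ∈ K, ∀ y ∈ Ω, y ∉ dyo v k.1 k.2 → ∀ u ∈ closedBall (ctr v k.1 k.2) (rB n k),
      σ y < ‖f y - am f F (x k) u‖)
    (hσ2 : ∀ k ∈ K, ∀ y ∈ dyc v k.1 k.2, σ y ≤ σ₀ k)
    (hκ : ∀ k ∈ K, κ (x k) / 2 ^ k.1 ≤ 1 / 2 ^ n k)
    (hC1 : ∀ k ∈ K, C k / 2 ^ k₁ k ≤ θ k * τ k)
    (hσ₀ : ∀ k ∈ K, σ₀ k ≤ θ k * τ k / 2 / 2 ^ n k)
    (hκ₀ : ∀ k ∈ K, κ (x k) / 2 ^ (k.1 + s (x k)) ≤ θ k * τ k / 2 / 2 ^ n k)
    (hJ : ∀ k ∈ K, 1 ≤ J (c₀ k) ∧ J (c₀ k) + 2 ≤ k₁ k)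
    (hc0 : ∀ k ∈ K, 0 < c₀ k ∧ c₀ k ≤ 1 / 64)
    (t1 : ∀ k ∈ K, 2 * τ k + 1 / 2 ^ k₁ k ≤ Δ (c₀ k))
    (t2 : ∀ k ∈ K, τ k ≤ 1 / 2 / 2 ^ J (c₀ k)) (lt : ∀ k ∈ K, k.1 < n k) :
    BlkM Ω Λ v K n k₁ (fun k => blk k (n k)) f h L b c₀ τ J Δ := by
  have hn : ∀ k ∈ K, k.1 ≤ n k := fun k hk => (lt k hk).le
  have hinv : ∀ k ∈ K, ∀ w y, ‖afi (L k) (b k) w - y‖ ≤ ‖w - am f F (x k) y‖ / θ k := by
    intro k hk w y
    rw [le_div_iff₀ (hθ0 k hk), mul_comm]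
    refine (hθ k hk _).trans (le_of_eq ?_)
    congr 1
    rw [← hL k hk y, map_sub]
    unfold afi af
    rw [(L k).apply_symm_apply]
    abel
  have close : ∀ k ∈ K, ∀ y ∈ dyc v k.1 k.2, ‖afi (L k) (b k) (h y) - y‖ ≤ τ k / 2 ^ n k := by
    intro k hk y hy
    refine (hinv k hk (h y) y).trans ?_
    rw [div_le_iff₀ (hθ0 k hk)]
    refine (N.box_close B hn hk (hC k hk) (hσ2 k hk) hy).trans (max_le ?_ ?_)
    · have h1 := hC1 k hk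
      calc C k / 2 ^ (n k + k₁ k) = C k / 2 ^ k₁ k / 2 ^ n k := by
            rw [pow_add, div_div, mul_comm]
        _ ≤ θ k * τ k / 2 ^ n k := by gcongr
        _ = τ k / 2 ^ n k * θ k := by ring
    · have h1 := hσ₀ k hk
      have h2 := hκ₀ k hk
      calc σ₀ k + κ (x k) / 2 ^ (k.1 + s (x k)) ≤
            θ k * τ k / 2 / 2 ^ n k + θ k * τ k / 2 / 2 ^ n k := add_le_add h1 h2
        _ = τ k / 2 ^ n k * θ k := by ring
  have hτ : ∀ k ∈ K, τ k ≤ 1 / 4 := by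
    intro k hk
    refine (t2 k hk).trans ?_
    have h1 := two_le_pow' (hJ k hk).1
    have h2 : (1:ℝ) / 2 / 2 ^ J (c₀ k) ≤ 1 / 2 / 2 :=
      div_le_div_of_nonneg_left (by norm_num) (by norm_num) h1
    linarith
  have img : ∀ k ∈ K, af (L k) (b k) '' closedBall (ctr v k.1 k.2) (rB n k) ⊆
      f '' dyo v k.1 k.2 := by
    intro k hk
    have h1 : af (L k) (b k) '' closedBall (ctr v k.1 k.2) (rB n k) =
        am f F (x k) '' closedBall (ctr v k.1 k.2) (rB n k) := image_congr fun y _ => hL k hk y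
    rw [h1]
    exact img_of B hκ hk
  refine ⟨hΛ, hf, img, ?_, close, ?_, fun k hk => ⟨(hJ k hk).1, by have := (hJ k hk).2; omega⟩,
    hc0, t1, t2, lt⟩
  · intro k hk y hy hyk hcon
    have hcon' : h y ∈ am f F (x k) '' closedBall (ctr v k.1 k.2) (rB n k) := by
      refine ⟨_, hcon, ?_⟩
      rw [← hL k hk, af_afi]
    by_cases hcell : ∃ k' ∈ K, ∃ z ∈ blk k' (n k'), y ∈ interior (dyc v (n k') z)
    · obtain ⟨k', hk', z, hz, hyz⟩ := hcell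
      have hyz' := interior_subset hyz
      have hyd : y ∈ dyo v k'.1 k'.2 := by
        rw [_root_.P073.Gauge.C110.interior_dyc] at hyz
        exact H193.dyo_sub (blk_sub (hn k' hk') hz v) hyz
      have hne : k ≠ k' := by
        rintro rfl
        exact hyk hyd
      have h1 : afi (L k') (b k') (h y) ∈ closedBall (ctr v k'.1 k'.2) (rB n k') := by
        rw [mem_closedBall, dist_eq_norm]
        have h2 := blk_mg (v := v) (hn k' hk') hz hyz'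
        have h3 := close k' hk' y (P86.dyo_sub_dyc hyd)
        have h4 := hτ k' hk'
        have h5 : τ k' / 2 ^ n k' ≤ 1 / 4 / 2 ^ n k' := by gcongr
        have h6 : (0:ℝ) < 1 / 2 ^ n k' := by positivity
        calc ‖afi (L k') (b k') (h y) - ctr v k'.1 k'.2‖ =
              ‖(afi (L k') (b k') (h y) - y) + (y - ctr v k'.1 k'.2)‖ := by congr 1; abel
          _ ≤ ‖afi (L k') (b k') (h y) - y‖ + ‖y - ctr v k'.1 k'.2‖ := norm_add_le _ _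
          _ ≤ 1 / 4 / 2 ^ n k' + (1 / 2 / 2 ^ k'.1 - 1 / 2 ^ n k') := by linarith
          _ ≤ 1 / 2 / 2 ^ k'.1 - 1 / 2 / 2 ^ n k' := by
            have e1 : (1:ℝ) / 4 / 2 ^ n k' = 1 / 4 * (1 / 2 ^ n k') := by ring
            have e2 : (1:ℝ) / 2 / 2 ^ n k' = 1 / 2 * (1 / 2 ^ n k') := by ring
            rw [e1, e2]
            linarith
      have h2 : h y ∈ f '' dyo v k'.1 k'.2 := by
        refine img k' hk' ⟨_, h1, ?_⟩
        rw [af_afi]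
      obtain ⟨u, hu, hfu⟩ := img_of B hκ hk hcon'
      obtain ⟨u', hu', hfu'⟩ := h2
      obtain ⟨g, hg, -, -⟩ := hf
      have h3 : u = u' := by
        rw [← (hg.1 u ((B.pt k hk).2.1 (P86.dyo_sub_dyc hu))).2, hfu, ← hfu',
          (hg.1 u' ((B.pt k' hk').2.1 (P86.dyo_sub_dyc hu'))).2]
      exact Set.disjoint_left.1 (B.disj k hk k' hk' hne) hu (h3 ▸ hu')
    · push Not at hcell
      have h1 := N.off y hy hcell
      obtain ⟨u, hu, hyu⟩ := hcon'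
      have h2 := hσ1 k hk y hy hyk u hu
      rw [hyu, norm_sub_rev] at h2
      linarith
  · intro k hk z hz y hy
    rw [hL k hk]
    refine N.box k hk z hz y ?_
    have h1 : (2:ℝ) / 2 ^ (n k + k₁ k) ≤ 1 / 2 / 2 ^ J (c₀ k) / 2 ^ n k := by
      have h2 : (2:ℝ) ^ (J (c₀ k) + 2) ≤ 2 ^ k₁ k := pow_le_pow_right₀ (by norm_num) (hJ k hk).2
      have h3 : (2:ℝ) / 2 ^ k₁ k ≤ 1 / 2 / 2 ^ J (c₀ k) := by
        calc (2:ℝ) / 2 ^ k₁ k ≤ 2 / 2 ^ (J (c₀ k) + 2) := by gcongr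
          _ = 1 / 2 / 2 ^ J (c₀ k) := by rw [pow_add]; ring
      calc (2:ℝ) / 2 ^ (n k + k₁ k) = 2 / 2 ^ k₁ k / 2 ^ n k := by
            rw [pow_add, div_div, mul_comm]
        _ ≤ _ := by gcongr
    intro i
    rw [mem_closedBall, dist_eq_norm] at hy
    have h2 := (norm_le_pi_norm (y - ctr v (n k) z) i).trans hy
    rw [Pi.sub_apply, Real.norm_eq_abs, abs_le] at h2
    have e1 : ctr v (n k) z i = v i + (z i + 1 / 2) / 2 ^ n k := rfl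
    have e2 : ((z i : ℝ) + 1 / 2) / 2 ^ n k = z i / 2 ^ n k + 1 / 2 / 2 ^ n k := add_div _ _ _
    have e3 : ((z i : ℝ) + 1) / 2 ^ n k = z i / 2 ^ n k + 1 / 2 / 2 ^ n k + 1 / 2 / 2 ^ n k := by
      rw [add_div]; ring
    have e4 : (1 - 1 / 2 ^ J (c₀ k) : ℝ) / 2 / 2 ^ n k =
        1 / 2 / 2 ^ n k - 1 / 2 / 2 ^ J (c₀ k) / 2 ^ n k := by ring
    rw [e1, e2, e4] at h2
    rw [e3]
    constructor <;> linarith [h2.1, h2.2]
where
  two_le_pow' {j : ℕ} (hj : 1 ≤ j) : (2:ℝ) ≤ 2 ^ j := by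
    calc (2:ℝ) = 2 ^ 1 := by norm_num
      _ ≤ 2 ^ j := pow_le_pow_right₀ (by norm_num) hj

/-! ### The final form -/

open Classical in
/-- the matrix `F y` as an equivalence -/
noncomputable def LF (F : V → Mat) (y : V) : V ≃L[ℝ] V :=
  if h : (cl (F y)).det ≠ 0 then
    (LinearEquiv.ofIsUnitDet (M := V) (f := (cl (F y) : V →ₗ[ℝ] V)) (v := Module.finBasis ℝ V)
      (v' := Module.finBasis ℝ V) (by
        rw [LinearMap.det_toMatrix]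
        exact isUnit_iff_ne_zero.2 h)).toContinuousLinearEquiv
  else ContinuousLinearEquiv.refl ℝ V

theorem LF_apply {F : V → Mat} {y : V} (h : (cl (F y)).det ≠ 0) (w : V) :
    LF F y w = cl (F y) w := by
  unfold LF
  rw [dif_pos h]
  rfl

/-- the translation of the affine model at `y` -/
noncomputable def bF (f : V → V) (F : V → Mat) (y : V) : V := f y - cl (F y) y

theorem af_LF {f : V → V} {F : V → Mat} {y : V} (h : (cl (F y)).det ≠ 0) (w : V) :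
    af (LF F y) (bF f F y) w = am f F y w := by
  show LF F y w + (f y - cl (F y) y) = f y + cl (F y) (w - y)
  rw [LF_apply h, map_sub]
  abel

/-- **[H0] + [BLKM]** from a given conical map `h₀`: it is changed in the cells of the inner
blocks only. -/
theorem exists_h0M_from (hp : 1 ≤ p) (hΩ : St.IsBoundedDomain Ω) (hΛ : St.IsBoundedDomain Λ)
    (hf : St.IsHomeo Ω Λ f) (B : Boxes p ε M₀ c τ₀ φ κ μ s Ω Λ f F v nn K x)
    (hI : Part Ω v I) {N : Idx → ℕ}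
    (near : ∀ k ∈ K, ∀ z, (dyc v (N k) z ∩ blkS v k (n k)).Nonempty → ((N k, z) : Idx) ∈ I)
    (k₁ : V → ℕ) (hk₁ : ∀ k ∈ K, 3 ≤ k₁ (x k)) (hn : ∀ k ∈ K, k.1 < n k)
    (hN : ∀ k ∈ K, N k = k.1 + s (x k)) (hs : ∀ k ∈ K, N k = n k + k₁ (x k) + kF F k₁ (x k))
    (hκF : ∀ k ∈ K, κ (x k) ≤ κF p F k₁ (x k))
    {L : Idx → V ≃L[ℝ] V} {b : Idx → V} (hL : ∀ k ∈ K, ∀ y, af (L k) (b k) y = am f F (x k) y)
    {c₀ τ : Idx → ℝ} {J : ℝ → ℕ} {Δ : ℝ → ℝ}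
    (hκ : ∀ k ∈ K, κ (x k) / 2 ^ k.1 ≤ 1 / 2 ^ n k)
    (hC1 : ∀ k ∈ K, CF F (x k) / 2 ^ k₁ (x k) ≤ thF F (x k) * τ k)
    (hκ₀ : ∀ k ∈ K, κ (x k) / 2 ^ (k.1 + s (x k)) ≤ thF F (x k) * τ k / 2 / 2 ^ n k)
    (hJ : ∀ k ∈ K, 1 ≤ J (c₀ k) ∧ J (c₀ k) + 2 ≤ k₁ (x k))
    (hc0 : ∀ k ∈ K, 0 < c₀ k ∧ c₀ k ≤ 1 / 64)
    (t1 : ∀ k ∈ K, 2 * τ k + 1 / 2 ^ k₁ (x k) ≤ Δ (c₀ k))
    (t2 : ∀ k ∈ K, τ k ≤ 1 / 2 / 2 ^ J (c₀ k)) {r : V → ℝ} (hr : LBOn Ω r)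
    {δ : Idx × Fin 3 → ℝ} (hδ : ∀ e, 0 < δ e) :
    ∃ (σ : V → ℝ), ContinuousOn σ Ω ∧ (∀ y ∈ Ω, 0 < σ y ∧ σ y ≤ r y) ∧
      (∀ k ∈ K, ∀ y ∈ dyc v k.1 k.2, σ y ≤ thF F (x k) * τ k / 2 / 2 ^ n k) ∧
    ∃ (m : V → ℝ) (δ' : Idx × Fin 3 → ℝ), ContinuousOn m Ω ∧ (∀ y ∈ Ω, 0 < m y) ∧
      (∀ y ∈ Ω, m y ≤ σ y) ∧ (∀ e, 0 < δ' e) ∧ (∀ e, δ' e ≤ δ e) ∧
    ∀ h₀ : ConHomeo Ω Λ, Near0 v I f F Ω m δ' h₀.toFun →
    ∃ h : ConHomeo Ω Λ,
      NetB v I K x n (fun k => k₁ (x k)) (fun k => kF F k₁ (x k)) (fun k => CF F (x k)) f F Ω σ δ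
        h.toFun ∧
      BlkM Ω Λ v K n (fun k => k₁ (x k)) (fun k => blk k (n k)) f h.toFun L b c₀ τ J Δ ∧
      ∀ y ∈ Ω, (∀ k ∈ K, ∀ z ∈ blk k (n k), y ∉ interior (dyc v (n k) z)) →
        h.toFun y = h₀.toFun y := by
  have hτ : ∀ k ∈ K, 0 < τ k := by
    intro k hk
    have h1 : 0 < CF F (x k) / 2 ^ k₁ (x k) := div_pos (CF_pos _ _) (by positivity)
    have h2 := h1.trans_le (hC1 k hk)
    exact (pos_iff_pos_of_mul_pos h2).1 (thF_pos F (x k))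
  obtain ⟨σ, hσc, hσ0, hσ1, hσ2, hσr⟩ := exists_sigma hΩ.1 hΛ.1 hf B hκ
    (σ₀ := fun k => thF F (x k) * τ k / 2 / 2 ^ n k)
    (fun k hk => by have := thF_pos F (x k); have := hτ k hk; positivity) hr
  obtain ⟨m, δ', m1, m2, m3, m4, m5, hex⟩ := exists_h0F_from hp hΩ hΛ B hI near k₁ hk₁
    (fun k hk => (hn k hk).le) hN hs hκF hσc hσ0 hδ
  refine ⟨σ, hσc, fun y hy => ⟨hσ0 y hy, hσr y hy⟩, hσ2, m, δ', m1, m2, m3, m4, m5,
    fun h₀ H₀ => ?_⟩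
  obtain ⟨h, Hh, Hk⟩ := hex h₀ H₀
  refine ⟨h, Hh, ?_, Hk⟩
  have hLw : ∀ k ∈ K, ∀ w, L k w = cl (F (x k)) w := by
    intro k hk w
    have h1 : L k w + b k = f (x k) + cl (F (x k)) (w - x k) := hL k hk w
    have h0 : L k 0 + b k = f (x k) + cl (F (x k)) (0 - x k) := hL k hk 0
    rw [map_zero, zero_add, zero_sub, map_neg] at h0
    rw [map_sub, h0] at h1
    have h2 : L k w = (L k w + (f (x k) + -cl (F (x k)) (x k))) -
      (f (x k) + -cl (F (x k)) (x k)) := by abel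
    rw [h2, h1]
    abel
  refine blkM hΛ.1 hf B Hh (fun k _ => (CF_pos F (x k)).le) hL (fun k _ => thF_pos F (x k)) ?_
    hσ1 hσ2 hκ hC1 (fun k _ => le_rfl) hκ₀ hJ hc0 t1 t2 hn
  intro k hk w
  rw [hLw k hk w]
  exact thF_le (B.pt k hk).2.2.1 w

/-- **[H0] + [BLKM]**: the conical homeomorphism before Round 1, with its metric properties. -/
theorem exists_h0M (hp : 1 ≤ p) (hΩ : St.IsBoundedDomain Ω) (hΛ : St.IsBoundedDomain Λ)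
    (hf : St.IsHomeo Ω Λ f) (B : Boxes p ε M₀ c τ₀ φ κ μ s Ω Λ f F v nn K x)
    (hI : Part Ω v I) {N : Idx → ℕ}
    (near : ∀ k ∈ K, ∀ z, (dyc v (N k) z ∩ blkS v k (n k)).Nonempty → ((N k, z) : Idx) ∈ I)
    (k₁ : V → ℕ) (hk₁ : ∀ k ∈ K, 3 ≤ k₁ (x k)) (hn : ∀ k ∈ K, k.1 < n k)
    (hN : ∀ k ∈ K, N k = k.1 + s (x k)) (hs : ∀ k ∈ K, N k = n k + k₁ (x k) + kF F k₁ (x k))
    (hκF : ∀ k ∈ K, κ (x k) ≤ κF p F k₁ (x k))
    {L : Idx → V ≃L[ℝ] V} {b : Idx → V} (hL : ∀ k ∈ K, ∀ y, af (L k) (b k) y = am f F (x k) y)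
    {c₀ τ : Idx → ℝ} {J : ℝ → ℕ} {Δ : ℝ → ℝ}
    (hκ : ∀ k ∈ K, κ (x k) / 2 ^ k.1 ≤ 1 / 2 ^ n k)
    (hC1 : ∀ k ∈ K, CF F (x k) / 2 ^ k₁ (x k) ≤ thF F (x k) * τ k)
    (hκ₀ : ∀ k ∈ K, κ (x k) / 2 ^ (k.1 + s (x k)) ≤ thF F (x k) * τ k / 2 / 2 ^ n k)
    (hJ : ∀ k ∈ K, 1 ≤ J (c₀ k) ∧ J (c₀ k) + 2 ≤ k₁ (x k))
    (hc0 : ∀ k ∈ K, 0 < c₀ k ∧ c₀ k ≤ 1 / 64)
    (t1 : ∀ k ∈ K, 2 * τ k + 1 / 2 ^ k₁ (x k) ≤ Δ (c₀ k))
    (t2 : ∀ k ∈ K, τ k ≤ 1 / 2 / 2 ^ J (c₀ k)) {r : V → ℝ} (hr : LBOn Ω r)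
    {δ : Idx × Fin 3 → ℝ} (hδ : ∀ e, 0 < δ e) :
    ∃ (σ : V → ℝ) (h : ConHomeo Ω Λ), ContinuousOn σ Ω ∧ (∀ y ∈ Ω, 0 < σ y ∧ σ y ≤ r y) ∧
      (∀ k ∈ K, ∀ y ∈ dyc v k.1 k.2, σ y ≤ thF F (x k) * τ k / 2 / 2 ^ n k) ∧
      NetB v I K x n (fun k => k₁ (x k)) (fun k => kF F k₁ (x k)) (fun k => CF F (x k)) f F Ω σ δ
        h.toFun ∧
      BlkM Ω Λ v K n (fun k => k₁ (x k)) (fun k => blk k (n k)) f h.toFun L b c₀ τ J Δ := by
  obtain ⟨σ, s1, s2, s3, m, δ', m1, m2, -, m4, -, hex⟩ := exists_h0M_from hp hΩ hΛ hf B hI near k₁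
    hk₁ hn hN hs hκF hL hκ hC1 hκ₀ hJ hc0 t1 t2 hr hδ
  obtain ⟨h₀, H₀⟩ := exists_near0 PA285.netOutN hΩ hΛ hf hI B.rat
    (fun e ⟨q, hq, he⟩ => edge_ne_top hp B.gen ((Gr.edge_subset_dyc he).trans (hI.sub q hq)))
    m1 m2 m4
  obtain ⟨h, h1, h2, -⟩ := hex h₀ H₀
  exact ⟨σ, h, s1, s2, s3, h1, h2⟩

end Vale.Agent.P073.H622
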