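import Vale.Agent.P073.H194.PreMesh
import Vale.Agent.P073.H83.Grid4
import Vale.Agent.P073.H83.Grid3
import Vale.Agent.P073.H83.SqRel
import Vale.Agent.P073.H333.Ctr

/-!
# P073, block A15-PRE, [PD5]: the centres of the tiles

One choice of the centres: far from the layers of the good cells, good in the sense of `GoodC`, and
with controlled weighted energy of `fs` on the divided cubes.
-/

namespace Vale.Agent.P073.H622

open MeasureTheory Set Filter Topology Metric Vale.Agent.P073.St Vale.Agent.P073.AB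
open _root_.P073.Net (dyc dyo IsTile SizeFn)
open Vale.Agent.P073.H73 (Bix ctr)
open Vale.Agent.P073.H194 (fs Gs fs_in fs_out Gs_in Gs_out Oc isClosed_Oc wH zo so co OT cubes_OT
  GoodC isCompact_boxR)
open Vale.Agent.P073.H333 (lay gap core out base Mid)
open Vale.Agent.P073.H471 (wgt wt Cw Cw_ne_top measurable_wt)
open Vale.Agent.P073.H83 (CellsG gB gB_J grho tauC exists_centres sizeFn_grho cell_sub_boxR)
open scoped ENNReal

/-- the constant -/
noncomputable def CC (p : ℝ) : ℝ≥0∞ := 9 ^ p * (1 + 8 * (4 * Cw p))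

theorem CC_ne_top {p : ℝ} (hp : 0 ≤ p) (hp3 : p < 3) : CC p ≠ ⊤ := by
  unfold CC
  refine ENNReal.mul_ne_top (ENNReal.rpow_ne_top_of_nonneg hp (by simp)) ?_
  refine ENNReal.add_ne_top.2 ⟨ENNReal.one_ne_top, ?_⟩
  exact ENNReal.mul_ne_top (by simp) (ENNReal.mul_ne_top (by simp) (Cw_ne_top hp3))

variable {p θ M κ : ℝ} {m₁ n k₁ k₀ mt m' : ℕ} {Ω Λ : Set V} {f : V → V} {v : V}
  {J : Finset (Fin 3 → ℤ)} {A : (Fin 3 → ℤ) → V → V} {L : (Fin 3 → ℤ) → V →L[ℝ] V}
  {G : V → ℝ≥0∞}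

/-- the weight is measurable -/
theorem measurable_wgt {ι : Type*} [Countable ι] (z c : ι → V) (σ : ι → ℝ) :
    Measurable (wgt z σ c) := by
  unfold wgt
  refine Measurable.add measurable_const (Measurable.ennreal_tsum fun i => ?_)
  refine Measurable.indicator ?_ measurableSet_closedBall
  fun_prop

/-- the domain of the divided cubes -/
def Ud (Ω : Set V) (v : V) (n k₁ k₀ : ℕ) (J : Finset (Fin 3 → ℤ)) : Set V :=
  ⋃ q ∈ base Ω v n k₁ k₀ J \ (lay v n k₁ k₀ J ∪ gap v n k₁ J), dyc v q.1 q.2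

theorem measurableSet_Ud : MeasurableSet (Ud Ω v n k₁ k₀ J) :=
  MeasurableSet.biUnion (Set.to_countable _) fun q _ => (P86.isCompact_dyc v q.1 q.2).measurableSet

theorem Ud_sub (hF : H669.Fine Ω v n k₁ k₀ J) : Ud Ω v n k₁ k₀ J ⊆ Ω :=
  iUnion₂_subset fun q hq => hF.part_base.sub q hq.1

/-- off the protected boxes the divided cubes do not meet the open good cells -/
theorem Ud_off (hF : H669.Fine Ω v n k₁ k₀ J) {x : V} (hx : x ∈ Ud Ω v n k₁ k₀ J)
    (hxR : ∀ z ∈ J, x ∉ boxR v n k₁ z) : ∀ z ∈ J, x ∉ dyo v n z := by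
  obtain ⟨q, hq, hxq⟩ := mem_iUnion₂.1 hx
  rw [hF.diff_eq] at hq
  rcases hq with hq | ⟨-, z, hz, h⟩
  · exact fun z hz h => Set.disjoint_left.1 (hF.out_disj hq hz) hxq h
  · exact absurd (h hxq) (hxR z hz)

theorem aemeasurable_piece {β : Type*} [MeasurableSpace β] {g : V → β} {R : Set V}
    {U : Set V} (hRU : R = ⋃ z ∈ J, boxR v n k₁ z)
    (h1 : ∀ z ∈ J, AEMeasurable g (volume.restrict (boxR v n k₁ z)))
    (h2 : AEMeasurable g (volume.restrict (U \ R))) : AEMeasurable g (volume.restrict U) := by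
  have h3 : AEMeasurable g (volume.restrict (⋃ z : J, boxR v n k₁ z)) :=
    aemeasurable_iUnion_iff.2 fun z => h1 z z.2
  have h4 : AEMeasurable g (volume.restrict ((⋃ z : J, boxR v n k₁ z) ∪ U \ R)) :=
    aemeasurable_union_iff.2 ⟨h3, h2⟩
  refine h4.mono_measure (Measure.restrict_mono ?_ le_rfl)
  intro x hx
  by_cases hxR : x ∈ R
  · rw [hRU] at hxR
    obtain ⟨z, hz, hxz⟩ := mem_iUnion₂.1 hxR
    exact Or.inl (mem_iUnion.2 ⟨⟨z, hz⟩, hxz⟩)
  · exact Or.inr ⟨hx, hxR⟩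

theorem aemeasurable_fs (H : CellsG θ M κ m₁ n k₁ Ω Λ f v J A L)
    (hF : H669.Fine Ω v n k₁ k₀ J) :
    AEMeasurable (fs v n k₁ J A f) (volume.restrict (Ud Ω v n k₁ k₀ J)) := by
  have hR : ∀ z ∈ J, MeasurableSet (boxR v n k₁ z) := fun z _ => isCompact_boxR.measurableSet
  have hRm : MeasurableSet (⋃ z ∈ J, boxR v n k₁ z) :=
    MeasurableSet.biUnion (Finset.countable_toSet J) fun z hz => hR z hz
  refine aemeasurable_piece (J := J) (v := v) (n := n) (k₁ := k₁) rfl ?_ ?_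
  · intro z hz
    refine (H.continuous hz).measurable.aemeasurable.congr ?_
    filter_upwards [ae_restrict_mem (hR z hz)] with x hx
    exact (fs_in hz hx).symm
  · have h1 : AEMeasurable f (volume.restrict (Ud Ω v n k₁ k₀ J \ ⋃ z ∈ J, boxR v n k₁ z)) :=
      (H.cont_f.mono (sdiff_subset.trans (Ud_sub hF))).aemeasurable
        (measurableSet_Ud.diff hRm)
    refine h1.congr ?_
    filter_upwards [ae_restrict_mem (measurableSet_Ud.diff hRm)] with x hx
    refine (fs_out fun z hz h => hx.2 (mem_biUnion hz h)).symm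

theorem aemeasurable_Gs {Bx : Finset Bix} (hG : Measurable G) :
    AEMeasurable (Gs p v n k₁ J A L Bx G) (volume.restrict (Ud Ω v n k₁ k₀ J)) := by
  have hR : ∀ z ∈ J, MeasurableSet (boxR v n k₁ z) := fun z _ => isCompact_boxR.measurableSet
  have hRm : MeasurableSet (⋃ z ∈ J, boxR v n k₁ z) :=
    MeasurableSet.biUnion (Finset.countable_toSet J) fun z hz => hR z hz
  refine aemeasurable_piece (J := J) (v := v) (n := n) (k₁ := k₁) rfl ?_ ?_
  · intro z hz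
    have h1 : AEMeasurable ((Oc Bx A).indicator fun _ => ‖L z‖ₑ ^ p)
        (volume.restrict (boxR v n k₁ z)) :=
      (measurable_const.indicator (isClosed_Oc Bx A).measurableSet).aemeasurable
    refine h1.congr ?_
    filter_upwards [ae_restrict_mem (hR z hz)] with x hx
    exact (Gs_in hz hx).symm
  · refine hG.aemeasurable.congr ?_
    filter_upwards [ae_restrict_mem (measurableSet_Ud.diff hRm)] with x hx
    refine (Gs_out fun z hz h => hx.2 (mem_biUnion hz h)).symm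

/-- frontiers of the cells are null -/
theorem volume_frontier_cell (H : CellsG θ M κ m₁ n k₁ Ω Λ f v J A L) {b : Bix}
    (hb : b ∈ gB H mt) : volume (frontier (b.cell A)) = 0 := by
  refine Convex.addHaar_frontier _ ?_
  have hz := gB_J H b hb
  have hA : ∀ x y : V, ∀ s t : ℝ, s + t = 1 → A b.1 (s • x + t • y) = s • A b.1 x + t • A b.1 y := by
    intro x y s t hst
    have h1 : ∀ x, A b.1 x = A b.1 0 + L b.1 x := fun x => by
      have := H.eq_add hz 0 x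
      rwa [zero_add] at this
    rw [h1 (s • x + t • y), h1 x, h1 y, map_add, map_smul, map_smul, smul_add, smul_add]
    have h2 : A b.1 0 = s • A b.1 0 + t • A b.1 0 := by rw [← add_smul, hst, one_smul]
    nth_rewrite 1 [h2]
    abel
  intro x hx y hy s t hs ht hst
  show A b.1 (s • x + t • y) ∈ Icc b.2.1 b.2.2
  rw [hA x y s t hst]
  exact (convex_Icc _ _) hx hy hs ht hst

theorem volume_dyc_diff (v : V) (n : ℕ) (z : Fin 3 → ℤ) : volume (dyc v n z \ dyo v n z) = 0 := by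
  have h1 : dyc v n z \ dyo v n z = frontier (dyc v n z) := by
    rw [(P86.isCompact_dyc v n z).isClosed.frontier_eq, H83.interior_dyc]
  rw [h1]
  refine Convex.addHaar_frontier _ ?_
  have : dyc v n z = ⋂ k, {x : V | v k + z k / 2 ^ n ≤ x k} ∩ {x : V | x k ≤ v k + (z k + 1) / 2 ^ n} := by
    ext x
    simp only [mem_iInter]
    rfl
  rw [this]
  refine convex_iInter fun k => ?_
  exact (convex_halfSpace_ge (LinearMap.proj (R := ℝ) (φ := fun _ : Fin 3 => ℝ) k).isLinear _).inter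
    (convex_halfSpace_le (LinearMap.proj (R := ℝ) (φ := fun _ : Fin 3 => ℝ) k).isLinear _)

/-- the total mass -/
theorem lintegral_Gs_le (H : CellsG θ M κ m₁ n k₁ Ω Λ f v J A L)
    (hF : H669.Fine Ω v n k₁ k₀ J) (hp : 0 ≤ p) :
    ∫⁻ x in Ud Ω v n k₁ k₀ J, Gs p v n k₁ J A L (gB H mt) G x ≤
      (∫⁻ x in Ω \ ⋃ z ∈ J, dyc v n z, G x) + ENNReal.ofReal M ^ p *
        ∑ z ∈ J, volume (boxR v n k₁ z \ ⋃ b ∈ {b | b ∈ gB H mt ∧ b.1 = z}, b.cell A) := by
  classical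
  have hR : ∀ z ∈ J, MeasurableSet (boxR v n k₁ z) := fun z _ => isCompact_boxR.measurableSet
  have hRm : MeasurableSet (⋃ z ∈ J, boxR v n k₁ z) :=
    MeasurableSet.biUnion (Finset.countable_toSet J) fun z hz => hR z hz
  set R : Set V := ⋃ z ∈ J, boxR v n k₁ z with hRdef
  have hsub : Ud Ω v n k₁ k₀ J ⊆ R ∪ Ud Ω v n k₁ k₀ J \ R := by
    intro x hx
    by_cases h : x ∈ R
    · exact Or.inl h
    · exact Or.inr ⟨hx, h⟩
  have hpart1 : ∫⁻ x in Ud Ω v n k₁ k₀ J \ R, Gs p v n k₁ J A L (gB H mt) G x ≤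
      ∫⁻ x in Ω \ ⋃ z ∈ J, dyc v n z, G x := by
    have h1 : ∫⁻ x in Ud Ω v n k₁ k₀ J \ R, Gs p v n k₁ J A L (gB H mt) G x =
        ∫⁻ x in Ud Ω v n k₁ k₀ J \ R, G x := by
      refine setLIntegral_congr_fun (measurableSet_Ud.diff hRm) fun x hx => ?_
      exact Gs_out fun z hz h => hx.2 (mem_biUnion hz h)
    rw [h1]
    refine lintegral_mono' (Measure.restrict_mono_ae ?_) le_rfl
    have h2 : ∀ᵐ x : V, ∀ z : J, x ∉ dyc v n z \ dyo v n z := by
      rw [ae_all_iff]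
      intro z
      exact measure_eq_zero_iff_ae_notMem.1 (volume_dyc_diff v n z)
    filter_upwards [h2] with x hx
    rintro ⟨hxU, hxR⟩
    refine ⟨Ud_sub hF hxU, fun hcon => ?_⟩
    obtain ⟨z, hz, hxz⟩ := mem_iUnion₂.1 hcon
    refine hx ⟨z, hz⟩ ⟨hxz, ?_⟩
    exact Ud_off hF hxU (fun z' hz' h => hxR (mem_biUnion hz' h)) z hz
  have hcell : ∀ z ∈ J, ∫⁻ x in boxR v n k₁ z, Gs p v n k₁ J A L (gB H mt) G x ≤
      ENNReal.ofReal M ^ p *
        volume (boxR v n k₁ z \ ⋃ b ∈ {b | b ∈ gB H mt ∧ b.1 = z}, b.cell A) := by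
    intro z hz
    have hM : 0 ≤ M := H.θ0.le.trans (H.M_pos hz)
    have hL : ‖L z‖ₑ ≤ ENNReal.ofReal M := by
      rw [← ofReal_norm]
      exact ENNReal.ofReal_le_ofReal (ContinuousLinearMap.opNorm_le_bound _ hM (H.above z hz))
    have h1 : ∫⁻ x in boxR v n k₁ z, Gs p v n k₁ J A L (gB H mt) G x =
        ∫⁻ x in boxR v n k₁ z, (Oc (gB H mt) A).indicator (fun _ => ‖L z‖ₑ ^ p) x :=
      setLIntegral_congr_fun (hR z hz) fun x hx => Gs_in hz hx
    rw [h1, lintegral_indicator (isClosed_Oc _ _).measurableSet, lintegral_const,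
      Measure.restrict_apply_univ, Measure.restrict_apply (isClosed_Oc _ _).measurableSet]
    refine mul_le_mul' (ENNReal.rpow_le_rpow hL hp) ?_
    have h2 : ∀ᵐ x : V, ∀ b : gB H mt, x ∉ frontier (b.1.cell A) := by
      rw [ae_all_iff]
      intro b
      exact measure_eq_zero_iff_ae_notMem.1 (volume_frontier_cell H b.2)
    refine measure_mono_ae ?_
    filter_upwards [h2] with x hx
    rintro ⟨hxO, hxR⟩
    refine ⟨hxR, fun hcon => ?_⟩
    obtain ⟨b, ⟨hb, hbz⟩, hxb⟩ := mem_iUnion₂.1 hcon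
    refine hx ⟨b, hb⟩ ⟨subset_closure hxb, fun hint => hxO ?_⟩
    exact mem_biUnion hb hint
  have hpart2 : ∫⁻ x in R, Gs p v n k₁ J A L (gB H mt) G x ≤
      ENNReal.ofReal M ^ p *
        ∑ z ∈ J, volume (boxR v n k₁ z \ ⋃ b ∈ {b | b ∈ gB H mt ∧ b.1 = z}, b.cell A) := by
    rw [Finset.mul_sum]
    refine le_trans ?_ (Finset.sum_le_sum hcell)
    have h1 : R = ⋃ z : J, boxR v n k₁ z := by
      rw [hRdef]
      ext x
      simp only [mem_iUnion, exists_prop, Subtype.exists]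
    rw [h1]
    refine (lintegral_iUnion_le _ _).trans (le_of_eq ?_)
    exact Finset.tsum_subtype J fun z => ∫⁻ x in boxR v n k₁ z, Gs p v n k₁ J A L (gB H mt) G x
  calc ∫⁻ x in Ud Ω v n k₁ k₀ J, Gs p v n k₁ J A L (gB H mt) G x
      ≤ ∫⁻ x in R ∪ Ud Ω v n k₁ k₀ J \ R, Gs p v n k₁ J A L (gB H mt) G x :=
        lintegral_mono_set hsub
    _ ≤ (∫⁻ x in R, Gs p v n k₁ J A L (gB H mt) G x) +
        ∫⁻ x in Ud Ω v n k₁ k₀ J \ R, Gs p v n k₁ J A L (gB H mt) G x :=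
        lintegral_union_le _ _ _
    _ ≤ _ := by
        rw [add_comm]
        exact add_le_add hpart1 hpart2

/-- **[PD5]** the centres -/
theorem exists_ctrs (H : CellsG θ M κ m₁ n k₁ Ω Λ f v J A L)
    (hF : H669.Fine Ω v n k₁ k₀ J) (hp : 0 ≤ p) (hm₁ : 2 ≤ m₁) (hn : n ≤ m₁) {a₁ : ℝ}
    (ha0 : 0 ≤ a₁) (ha1 : a₁ ≤ 1 / 2)
    (hthin : tauC θ M * (1 / 2 ^ (n + k₁) + a₁ / 2 ^ m₁ / θ) ≤ 1 / 2 ^ m₁)
    (hG : Measurable G) {nn : ℕ → ℕ} (hgood : ∀ᵐ c : V, GoodC p Ω f G v nn J A c)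
    (mt m' : ℕ) :
    ∃ c : ℕ → (Fin 3 → ℤ) → V, Mid (grho 0 v n k₁ m₁ mt m' J A Λ) c ∧
      (∀ m zz, IsTile (grho 0 v n k₁ m₁ mt m' J A Λ) 0 m zz → ∀ z ∈ J, ∀ x ∈ dyc v n z,
        x ∉ boxR v n k₁ z → a₁ / 2 ^ m₁ ≤ ‖c m zz - A z x‖) ∧
      (∀ m zz, IsTile (grho 0 v n k₁ m₁ mt m' J A Λ) 0 m zz →
        GoodC p Ω f G v nn J A (c m zz)) ∧
      ∫⁻ x in ⋃ q ∈ base Ω v n k₁ k₀ J \ (lay v n k₁ k₀ J ∪ gap v n k₁ J), dyc v q.1 q.2,
        wH p (zo (grho 0 v n k₁ m₁ mt m' J A Λ) (gB H mt))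
          (so (grho 0 v n k₁ m₁ mt m' J A Λ) (gB H mt))
          (co (grho 0 v n k₁ m₁ mt m' J A Λ) (gB H mt) c) (fs v n k₁ J A f)
          (Gs p v n k₁ J A L (gB H mt) G) x ≤
        CC p * ((∫⁻ x in Ω \ ⋃ z ∈ J, dyc v n z, G x) + ENNReal.ofReal M ^ p *
          ∑ z ∈ J, volume (boxR v n k₁ z \ ⋃ b ∈ {b | b ∈ gB H mt ∧ b.1 = z}, b.cell A)) := by
  classical
  set ρ := grho 0 v n k₁ m₁ mt m' J A Λ with hρdef
  have hρ : SizeFn Λ ρ := sizeFn_grho 0 v n k₁ m₁ mt m' J A H.oΛ H.bΛ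
  set U := Ud Ω v n k₁ k₀ J with hU
  set g := fs v n k₁ J A f with hg
  set GG := Gs p v n k₁ J A L (gB H mt) G with hGG
  have hgm : AEMeasurable g (volume.restrict U) := aemeasurable_fs H hF
  have hGm : AEMeasurable GG (volume.restrict U) := aemeasurable_Gs hG
  set ν : Measure V := (volume.restrict U).withDensity GG with hν
  have hgν : AEMeasurable g ν := hgm.mono_ac (withDensity_absolutelyContinuous _ _)
  have hr1 : 0 ≤ a₁ / 2 ^ m₁ := by positivity
  have hr2 : a₁ / 2 ^ m₁ ≤ 1 / 2 / 2 ^ m₁ := by gcongr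
  obtain ⟨c, hc⟩ := exists_centres (w := 0) (mt := mt) (m' := m') H hm₁ hn hr1 hr2 hthin
    (p := p) (T := Unit) (X := fun _ => V) (fun _ => ν) (g := fun _ => g) (fun _ => hgν)
    (N := {c | ¬ GoodC p Ω f G v nn J A c}) (ae_iff.1 hgood)
  refine ⟨c, fun m z ht => (hc m z ht).1, fun m zz ht => (hc m zz ht).2.2.1,
    fun m zz ht => ?_, ?_⟩
  · have := (hc m zz ht).2.1
    simpa using this
  · have hW := cubes_OT hρ (gB H mt)
    have hcount : Countable (OT ρ (gB H mt)) := inferInstance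
    have hK : ∀ i : OT ρ (gB H mt), ∫⁻ x in g ⁻¹' closedBall (zo ρ (gB H mt) i) (so ρ (gB H mt) i),
        wt p (so ρ (gB H mt) i) (g x - co ρ (gB H mt) c i) ∂ν ≤
          (4 * Cw p) * ν (g ⁻¹' closedBall (zo ρ (gB H mt) i) (so ρ (gB H mt) i)) := by
      intro i
      have h1 := (hc i.1.1.1 i.1.1.2 i.1.2).2.2.2 ()
      have h2 : closedBall (zo ρ (gB H mt) i) (so ρ (gB H mt) i) = dyc 0 i.1.1.1 i.1.1.2 :=
        H471.cB_eq i.1
      rw [h2]
      have h3 : 4 * (Fintype.card Unit : ℝ≥0∞) * (Cw p * ν (g ⁻¹' dyc 0 i.1.1.1 i.1.1.2)) =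
          4 * Cw p * ν (g ⁻¹' dyc 0 i.1.1.1 i.1.1.2) := by
        simp only [Fintype.card_unit, Nat.cast_one, mul_one]
        rw [mul_assoc]
      rw [← h3]
      exact h1
    have h4 := H471.lintegral_wgt_le' hW hp ν hgν hK
    have hwm : AEMeasurable (fun x => wgt (zo ρ (gB H mt)) (so ρ (gB H mt))
        (co ρ (gB H mt) c) (g x) ^ p) (volume.restrict U) :=
      ((measurable_wgt _ _ _).comp_aemeasurable hgm).pow_const p
    have h5 : ∫⁻ x, wgt (zo ρ (gB H mt)) (so ρ (gB H mt)) (co ρ (gB H mt) c) (g x) ^ p ∂ν =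
        ∫⁻ x in U, wH p (zo ρ (gB H mt)) (so ρ (gB H mt)) (co ρ (gB H mt) c) g GG x := by
      rw [hν, lintegral_withDensity_eq_lintegral_mul₀ hGm hwm]
      refine lintegral_congr fun x => ?_
      simp only [Pi.mul_apply, wH]
      rw [mul_comm]
    have h6 : ν univ = ∫⁻ x in U, GG x := by
      rw [hν, withDensity_apply _ MeasurableSet.univ, Measure.restrict_univ]
    rw [h5, h6] at h4
    refine h4.trans ?_
    unfold CC
    gcongr
    exact lintegral_Gs_le H hF hp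

end Vale.Agent.P073.H622
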