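import Vale.Agent.P073.H253.LineG
import Vale.Agent.P073.H439.EnerB
import Vale.Agent.P073.H732.XLine

/-!
# P073, rank one: the curve on the good line and its density
-/

open Set Metric Topology Filter MeasureTheory
open scoped ENNReal NNReal

namespace Vale.Agent.P073.H622

open Vale.Agent.P073
open Vale.Agent.P073.St (V Mat)
open Vale.Agent.P073.SQ (ev)
open Vale.Agent.P073.AB (Idx edge eInt cl)
open Vale.Agent.P073.H235 (Bx bm cmp cmpD P1)
open Vale.Agent.P073.H253 (ledge BVData lpt lpt_add jv)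

/-- the closed interval is the union of the dyadic intervals -/
theorem Icc_sub_jv (v₀ : ℝ) {η : ℝ} (hη : 0 < η) {α β : ℤ} (hlt : α < β) :
    Icc (v₀ + α * η) (v₀ + β * η) ⊆ ⋃ k : {k // k ∈ Finset.Ico α β}, jv v₀ η k := by
  rintro u ⟨h1, h2⟩
  set y : ℝ := (u - v₀) / η with hy
  have hyη : y * η = u - v₀ := by rw [hy]; field_simp
  have hα : (α : ℝ) ≤ y := by
    rw [hy, le_div_iff₀ hη]; linarith
  have hβ : y ≤ β := by
    rw [hy, div_le_iff₀ hη]; linarith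
  have hk : min ⌊y⌋ (β - 1) ∈ Finset.Ico α β := by
    rw [Finset.mem_Ico]
    refine ⟨le_min (Int.le_floor.2 hα) (by omega), (min_le_right _ _).trans_lt (by omega)⟩
  refine mem_iUnion.2 ⟨⟨_, hk⟩, ?_⟩
  show v₀ + ((min ⌊y⌋ (β - 1) : ℤ) : ℝ) * η ≤ u ∧ u ≤ v₀ + (((min ⌊y⌋ (β - 1) : ℤ) : ℝ) + 1) * η
  have h3 : ((min ⌊y⌋ (β - 1) : ℤ) : ℝ) ≤ y :=
    (by exact_mod_cast min_le_left _ _ : ((min ⌊y⌋ (β - 1) : ℤ) : ℝ) ≤ (⌊y⌋ : ℝ)).trans
      (Int.floor_le y)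
  have h4 : y ≤ ((min ⌊y⌋ (β - 1) : ℤ) : ℝ) + 1 := by
    rcases le_total ⌊y⌋ (β - 1) with h | h
    · rw [min_eq_left h]
      exact (Int.lt_floor_add_one y).le
    · rw [min_eq_right h]
      push_cast
      linarith
  have h5 := mul_le_mul_of_nonneg_right h3 hη.le
  have h6 := mul_le_mul_of_nonneg_right h4 hη.le
  exact ⟨by linarith, by linarith⟩

/-- the integral over the line from the integrals over the edges -/
theorem lint_line_le (v : V) (n : ℕ) (k₁ k₂ : ℤ) {α β : ℤ} (hlt : α < β) (H : V → ℝ≥0∞) :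
    ∫⁻ u in Icc (v 0 + α / 2 ^ n) (v 0 + β / 2 ^ n),
      H (lpt (v 1 + k₁ / 2 ^ n) (v 2 + k₂ / 2 ^ n) u) ≤
    ∑ k ∈ Finset.Ico α β, eInt v (ledge n k₁ k₂ k) H := by
  have h1 := Icc_sub_jv (v 0) (show (0:ℝ) < 1 / 2 ^ n by positivity) hlt
  rw [mul_one_div, mul_one_div] at h1
  refine (lintegral_mono_set h1).trans ((lintegral_iUnion_le _ _).trans ?_)
  rw [tsum_fintype]
  refine (le_of_eq ?_)
  rw [← Finset.sum_coe_sort (Finset.Ico α β) fun k => eInt v (ledge n k₁ k₂ k) H]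
  exact Finset.sum_congr rfl fun k _ => (H253.eInt_ledge v n k₁ k₂ k H).symm

/-- the curve and its density -/
theorem line_in {p θ₁ θ₂ κ : ℝ} {m₀ : ℕ} {Λ : Set V} {f : V → V} {F : V → Mat} (hp : 1 ≤ p)
    (hθ₁ : 0 < θ₁) (hθ₁4 : θ₁ ≤ 1 / 4) (hθ₂ : 0 < θ₂) (hθ₂4 : θ₂ ≤ 1 / 4)
    (D : BVData p θ₁ θ₂ κ m₀ Λ f F) (hom : St.IsHomeo (Bx (bm θ₁ θ₂)) Λ (cmp (bm θ₁ θ₂) f))
    {α β : ℤ} (hlt : α < β) (hunit : (β - α : ℝ) / 2 ^ m₀ ≤ 1)
    (hsub : ∀ k ∈ Finset.Ico α β, edge D.v (ledge m₀ D.B₁ D.B₂ k) ⊆ Bx (bm θ₁ θ₂))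
    (hin : ∀ u ∈ Icc (D.v 0 + α / 2 ^ m₀) (D.v 0 + β / 2 ^ m₀),
      lpt (D.v 1 + D.B₁ / 2 ^ m₀) (D.v 2 + D.B₂ / 2 ^ m₀) u ∈ Bx (bm θ₁ θ₂))
    {κP : ℝ} (hκP : 0 < κP) (hκ : κ ≤ (κP / 2) ^ p) :
    ∃ ψ : ℝ → ℝ,
      ContinuousOn (fun u => cmp (bm θ₁ θ₂) f (lpt (D.v 1 + D.B₁ / 2 ^ m₀)
        (D.v 2 + D.B₂ / 2 ^ m₀) u)) (Icc (D.v 0 + α / 2 ^ m₀) (D.v 0 + β / 2 ^ m₀)) ∧
      MapsTo (fun u => cmp (bm θ₁ θ₂) f (lpt (D.v 1 + D.B₁ / 2 ^ m₀)
        (D.v 2 + D.B₂ / 2 ^ m₀) u)) (Icc (D.v 0 + α / 2 ^ m₀) (D.v 0 + β / 2 ^ m₀)) Λ ∧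
      IntegrableOn ψ (Icc (D.v 0 + α / 2 ^ m₀) (D.v 0 + β / 2 ^ m₀)) ∧ (∀ t, 0 ≤ ψ t) ∧
      (∀ s t, D.v 0 + α / 2 ^ m₀ ≤ s → s ≤ t → t ≤ D.v 0 + β / 2 ^ m₀ →
        ‖(cmp (bm θ₁ θ₂) f (lpt (D.v 1 + D.B₁ / 2 ^ m₀) (D.v 2 + D.B₂ / 2 ^ m₀) t) - t • ev 0) -
          (cmp (bm θ₁ θ₂) f (lpt (D.v 1 + D.B₁ / 2 ^ m₀) (D.v 2 + D.B₂ / 2 ^ m₀) s) -
            s • ev 0)‖ ≤ ∫ x in s..t, ψ x) ∧
      ∫ x in Icc (D.v 0 + α / 2 ^ m₀) (D.v 0 + β / 2 ^ m₀), ψ x ≤ κP := by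
  set c₁ : ℝ := D.v 1 + D.B₁ / 2 ^ m₀ with hc₁
  set c₂ : ℝ := D.v 2 + D.B₂ / 2 ^ m₀ with hc₂
  set s₀ : ℝ := D.v 0 + α / 2 ^ m₀ with hs₀
  set s₁ : ℝ := D.v 0 + β / 2 ^ m₀ with hs₁
  set f' : V → V := cmp (bm θ₁ θ₂) f with hf'
  set F' : V → Mat := cmpD (bm θ₁ θ₂) F with hF'
  set G : ℝ → V := fun u => cl (F' (lpt c₁ c₂ u)) (ev 0) with hG
  set l : ℝ := s₁ - s₀ with hl
  have hl0 : 0 < l := by
    have h1 : (α : ℝ) < β := by exact_mod_cast hlt
    have h2 : (α : ℝ) / 2 ^ m₀ < β / 2 ^ m₀ := by gcongr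
    rw [hl, hs₀, hs₁]; linarith
  have hba : lpt c₁ c₂ s₁ - lpt c₁ c₂ s₀ = l • ev 0 := by
    have := lpt_add c₁ c₂ s₀ l
    rw [show s₀ + l = s₁ by rw [hl]; ring] at this
    rw [← this]
    simp
  have hpt : ∀ t : ℝ, lpt c₁ c₂ s₀ + t • (l • ev 0) = lpt c₁ c₂ (l * t + s₀) := by
    intro t
    rw [smul_smul, lpt_add, mul_comm t l, add_comm]
  have hmemI : ∀ t ∈ Icc (0:ℝ) 1, l * t + s₀ ∈ Icc s₀ s₁ := by
    rintro t ⟨h1, h2⟩
    constructor
    · have : 0 ≤ l * t := by positivity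
      linarith
    · have : l * t ≤ l * 1 := by gcongr
      rw [hl] at this ⊢
      linarith
  have hseg : segment ℝ (lpt c₁ c₂ s₀) (lpt c₁ c₂ s₁) ⊆ Bx (bm θ₁ θ₂) := by
    rw [segment_eq_image']
    rintro _ ⟨t, ht, rfl⟩
    simp only []
    rw [hba, hpt]
    exact hin _ (hmemI t ht)
  have hrat : ∀ z : ℤ, ∀ k, ∃ r : ℚ, lpt c₁ c₂ (D.v 0 + z / 2 ^ m₀) k = D.v k + r := by
    intro z k
    fin_cases k
    · exact ⟨z / 2 ^ m₀, by push_cast; rfl⟩
    · exact ⟨D.B₁ / 2 ^ m₀, by push_cast; rfl⟩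
    · exact ⟨D.B₂ / 2 ^ m₀, by push_cast; rfl⟩
  obtain ⟨g1, g2⟩ := D.rat (lpt c₁ c₂ s₀) (lpt c₁ c₂ s₁) (hrat α) (hrat β) hseg
  have hval : ∀ s : ℝ, cl (F' (lpt c₁ c₂ s₀ + s • (lpt c₁ c₂ s₁ - lpt c₁ c₂ s₀)))
      (lpt c₁ c₂ s₁ - lpt c₁ c₂ s₀) = l • G (l * s + s₀) := by
    intro s
    rw [hba, hpt, map_smul]
  have g1' : IntervalIntegrable (fun s => l • G (l * s + s₀)) volume 0 1 := by
    refine g1.congr ?_
    exact fun s _ => hval s
  have g2' : ∀ t ∈ Icc s₀ s₁, f' (lpt c₁ c₂ t) = f' (lpt c₁ c₂ s₀) + ∫ x in s₀..t, G x := by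
    rintro t ⟨ht1, ht2⟩
    have ht : (t - s₀) / l ∈ Icc (0:ℝ) 1 :=
      ⟨div_nonneg (by linarith) hl0.le, by rw [div_le_one hl0, hl]; linarith⟩
    have h1 := g2 _ ht
    rw [hba, hpt] at h1
    have e1 : l * ((t - s₀) / l) + s₀ = t := by field_simp; ring
    rw [e1] at h1
    refine h1.trans ?_
    show f' (lpt c₁ c₂ s₀) + _ = f' (lpt c₁ c₂ s₀) + _
    congr 1
    have h2 : (fun s : ℝ => cl (cmpD (bm θ₁ θ₂) F (lpt c₁ c₂ s₀ + s • (l • ev 0)))
        (l • ev 0)) = fun s => l • G (l * s + s₀) := by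
      funext s
      rw [hpt, map_smul]
    rw [h2, intervalIntegral.integral_smul, intervalIntegral.smul_integral_comp_mul_add, mul_zero,
      zero_add, e1]
  have hGi : IntervalIntegrable G volume s₀ s₁ := by
    have h1 : IntervalIntegrable (fun s => G (l * s + s₀)) volume 0 1 := by
      have := g1'.smul l⁻¹
      refine this.congr fun s _ => ?_
      show l⁻¹ • l • G (l * s + s₀) = G (l * s + s₀)
      rw [smul_smul, inv_mul_cancel₀ hl0.ne', one_smul]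
    have h2 := h1.comp_mul_left (c := l⁻¹)
    have h3 := h2.comp_add_right (-s₀)
    have e1 : (fun x => G (l * (l⁻¹ * (x + -s₀)) + s₀)) = G := by
      funext x
      congr 1
      rw [mul_inv_cancel_left₀ hl0.ne']
      ring
    rw [e1] at h3
    convert h3 using 1
    · simp
    · rw [hl]
      simp
  have hΨ : IntervalIntegrable (fun u => ‖G u - ev 0‖) volume s₀ s₁ :=
    (hGi.sub (intervalIntegrable_const)).norm
  have hle : s₀ ≤ s₁ := by rw [hl] at hl0; linarith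
  have hΨ' : IntegrableOn (fun u => ‖G u - ev 0‖) (Icc s₀ s₁) :=
    (intervalIntegrable_iff_integrableOn_Icc_of_le hle).1 hΨ
  obtain ⟨g, hg, hfc, -⟩ := hom
  have hlc : Continuous (lpt c₁ c₂) := by
    refine continuous_pi fun i => ?_
    fin_cases i
    · exact continuous_id
    · exact continuous_const
    · exact continuous_const
  refine ⟨fun u => ‖G u - ev 0‖, hfc.comp hlc.continuousOn hin, fun u hu => (hg.1 _ (hin u hu)).1,
    hΨ', fun _ => norm_nonneg _, ?_, ?_⟩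
  · intro s t hs hst ht
    have h1 := g2' s ⟨hs, hst.trans ht⟩
    have h2 := g2' t ⟨hs.trans hst, ht⟩
    have i1 : IntervalIntegrable G volume s₀ s := hGi.mono_set (by
      rw [uIcc_of_le hs, uIcc_of_le hle]
      exact Icc_subset_Icc le_rfl (hst.trans ht))
    have i2 : IntervalIntegrable G volume s t := hGi.mono_set (by
      rw [uIcc_of_le hst, uIcc_of_le hle]
      exact Icc_subset_Icc hs ht)
    have e1 : (f' (lpt c₁ c₂ t) - t • ev 0) - (f' (lpt c₁ c₂ s) - s • ev 0) =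
        ∫ x in s..t, (G x - ev 0) := by
      rw [intervalIntegral.integral_sub i2 intervalIntegrable_const,
        intervalIntegral.integral_const, h1, h2, ← intervalIntegral.integral_add_adjacent_intervals
          i1 i2, sub_smul]
      abel
    rw [e1]
    exact intervalIntegral.norm_integral_le_integral_norm hst
  · have h1 : ∫⁻ u in Icc s₀ s₁, ENNReal.ofReal ‖G u - ev 0‖ ≤ ENNReal.ofReal κP := by
      obtain ⟨-, -, -, -, -, -, E7⟩ := H439.EN.specEnerB p θ₁ θ₂ κ m₀ Λ f F hp hθ₁ hθ₁4 hθ₂ hθ₂4 D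
      have h2 := (E7 m₀ D.B₁ D.B₂ (Finset.Ico α β) hsub).2 (κP / 2) (by positivity)
      have h3 := lint_line_le D.v m₀ D.B₁ D.B₂ hlt fun x => ‖cl (F' x) - P1‖ₑ
      have hpos : 0 < (κP / 2) ^ (1 - p) := Real.rpow_pos_of_pos (by positivity) _
      calc ∫⁻ u in Icc s₀ s₁, ENNReal.ofReal ‖G u - ev 0‖
          ≤ ∫⁻ u in Icc s₀ s₁, ‖cl (F' (lpt c₁ c₂ u)) - P1‖ₑ := by
            refine lintegral_mono fun u => ?_
            rw [← ofReal_norm]
            refine ENNReal.ofReal_le_ofReal ?_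
            have h4 := (cl (F' (lpt c₁ c₂ u)) - P1).le_opNorm (ev 0)
            rw [AB.S293.ev_norm, mul_one, sub_apply, H732.P1_ev0] at h4
            exact h4
        _ ≤ _ := h3.trans h2
        _ ≤ ENNReal.ofReal (κP / 2) + ENNReal.ofReal ((κP / 2) ^ (1 - p)) *
            ENNReal.ofReal κ := by
            gcongr
            · have h5 : ((Finset.Ico α β).card : ℝ) / 2 ^ m₀ ≤ 1 := by
                rw [Int.card_Ico]
                have h6 : ((β - α).toNat : ℝ) = β - α := by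
                  have : (((β - α).toNat : ℤ) : ℝ) = ((β - α : ℤ) : ℝ) := by
                    rw [Int.toNat_of_nonneg (by omega)]
                  rw [Int.cast_natCast] at this
                  rw [this]
                  push_cast
                  rfl
                rw [h6]
                exact hunit
              nlinarith
            · exact D.line _ hsub
        _ ≤ ENNReal.ofReal (κP / 2) + ENNReal.ofReal (κP / 2) := by
            rw [← ENNReal.ofReal_mul hpos.le]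
            gcongr
            calc (κP / 2) ^ (1 - p) * κ ≤ (κP / 2) ^ (1 - p) * (κP / 2) ^ p := by gcongr
              _ = κP / 2 := by
                rw [← Real.rpow_add (by positivity)]
                simp
        _ = _ := by
            rw [← ENNReal.ofReal_add (by positivity) (by positivity)]
            congr 1
            ring
    rw [integral_eq_lintegral_of_nonneg_ae (Eventually.of_forall fun _ => norm_nonneg _)
      hΨ'.aestronglyMeasurable]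
    exact ENNReal.toReal_le_of_le_ofReal hκP.le h1

end Vale.Agent.P073.H622
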