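import Vale.Agent.P073.H234.GX.Def
import Vale.Agent.P073.H726.GeFin

/-!
# P073, block B10, rank one, **[X4]**: `SpecPreB` with a generic property of the origin
-/

open Set Metric Topology Filter MeasureTheory Matrix
open scoped ENNReal NNReal

namespace Vale.Agent.P073.H622

open Vale.Agent.P073
open Vale.Agent.P073.St (V Mat)
open Vale.Agent.P073.SQ (ev)
open Vale.Agent.P073.LOC (Near Q1 BdClose)
open Vale.Agent.P073.AB (Idx Part pt edge eInt squ FaceOf EdgeOf EdgeOfSq MinSq cl FinDist RatGood)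
open Vale.Agent.P073.H73 (MinEdge)
open Vale.Agent.P073.H194 (sInt cellT Gen partMesh RgN up)
open Vale.Agent.P073.H235 (Bx bm Fr Co cmp cmpD P1 En)
open Vale.Agent.P073.H253 (rectN redgeN ledge xL BVData iv)
open Vale.Agent.P073.H304 (K3C)
open Vale.Agent.P073.H696 (R2 HF)
open Vale.Agent.P073.H732 (upz)
open Vale.Agent.P073.H851 (M3)
open Vale.Agent.P073.H239
open Vale.Agent.P073.H234.GX (GXT SpecChainX SpecBVBX)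
open _root_.P073 (ConHomeo)
open _root_.P073.Net (dyc dyo IsTile SizeFn)

set_option maxHeartbeats 1000000 in
/-- **(G8) [PRE-B]** with a generic property of the origin -/
theorem specPreBXAsm {p : ℝ} (hp : 1 ≤ p) {GX : GXT} (hVB : SpecBVBX p GX) (hRB : H732.SpecRectB)
    (hBox : SpecBoxAt p) (hSeg : SpecSegB) (hTgt : SpecTgtF1) (hDom : SpecDomL) (hK : K3C p)
    (hCh : SpecChainX p GX) (hEnB : SpecEnB p) (hPlB : SpecPlB) (hEpB : SpecEpB p)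
    (hTgB : SpecTgB) (hEdB : SpecEdB p) : SpecPreB p := by
  obtain ⟨Cu, Lc, hCu, hLc, hTgt'⟩ := hTgt
  obtain ⟨Cc, hCc, hCh'⟩ := hCh hK
  obtain ⟨C₁, hC₁, hEn'⟩ := hEnB Cc hCc
  obtain ⟨C₂, hC₂, hEp'⟩ := hEpB
  obtain ⟨Ke, hKe, hEd'⟩ := hEdB
  refine ⟨Cu, max C₁ C₂, Lc, hCu, lt_max_of_lt_left hC₁, fun ν hν hν4 θ₂ hθ₂ hθ₂4 ν₁ hν₁ hν₁4 =>
    ⟨1 / 4, by norm_num, fun θ₁ hθ₁ hθ₁4 τ hτ j δ c ε hj hδ hc hε hε1 => ?_⟩⟩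
  obtain ⟨e, rfl⟩ : ∃ e, ε = 3 * e := ⟨ε / 3, by ring⟩
  have he : 0 < e := by linarith
  have he3 : e ≤ 3 * e := by linarith
  have hp0 : 0 < p := by linarith
  -- the numbers
  obtain ⟨b₀, hb₀, hTg⟩ := hTgt' e he
  set b : ℝ := min b₀ (1 / 2) with hb
  have hb0 : 0 < b := lt_min hb₀ (by norm_num)
  obtain ⟨κP, hκP, hP⟩ := hSeg (3 * e) b hε hb0 (min_le_right _ _)
  obtain ⟨m₀, -, hm₀⟩ := H726.PF.exists_pow_le (lt_min (show 0 < ν₁ * θ₂ / 8 by positivity)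
    (lt_min (show 0 < θ₁ / 2 by positivity) (lt_min hτ hν))) 0
  have hm1 : (1:ℝ) / 2 ^ m₀ ≤ ν₁ * θ₂ / 8 := hm₀.trans (min_le_left _ _)
  have hm2 : (1:ℝ) / 2 ^ m₀ ≤ θ₁ / 2 := (hm₀.trans (min_le_right _ _)).trans (min_le_left _ _)
  have hm3' : (1:ℝ) / 2 ^ m₀ ≤ min τ ν := (hm₀.trans (min_le_right _ _)).trans (min_le_right _ _)
  have hm3 : (1:ℝ) / 2 ^ m₀ ≤ τ := hm3'.trans (min_le_left _ _)
  have hm4 : (1:ℝ) / 2 ^ m₀ ≤ ν := hm3'.trans (min_le_right _ _)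
  set u : ℝ := e / Ke with hu
  have hu0 : 0 < u := by positivity
  have hs0 : 0 < (κP / 2) ^ p := Real.rpow_pos_of_pos (by positivity) _
  set κ : ℝ := min (min (ν₁ * θ₁ * θ₂) (ν * θ₂)) (min u ((κP / 2) ^ p)) with hκ
  have hκ0 : 0 < κ := lt_min (lt_min (by positivity) (by positivity)) (lt_min hu0 hs0)
  have hκ1 : κ ≤ ν₁ * θ₁ * θ₂ := (min_le_left _ _).trans (min_le_left _ _)
  have hκ2 : κ ≤ ν * θ₂ := (min_le_left _ _).trans (min_le_right _ _)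
  have hκ3 : κ ≤ u := (min_le_right _ _).trans (min_le_left _ _)
  have hκ4 : κ ≤ (κP / 2) ^ p := (min_le_right _ _).trans (min_le_right _ _)
  obtain ⟨κ', hκ', HV⟩ := hVB hp θ₁ θ₂ κ m₀ hθ₁ hθ₁4 hθ₂ hθ₂4 hκ0
  refine ⟨κ', hκ', fun Λ f F hN => ?_⟩
  obtain ⟨hhom, hsob, D, hgen, hgx, hown⟩ := HV Λ f F hN
  have hΛ := hN.dom
  -- the rectangle
  obtain ⟨α, β, hα, hlt, hRg, hun0, hun2, hB₂, hedge, hcov⟩ :=
    hRB θ₁ θ₂ ν₁ D.v m₀ D.B₁ D.B₂ hθ₁ hθ₂ hθ₂4 hν₁ (by linarith) hm1 hm2 D.mid₁ D.mid₂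
  have hUd : St.IsBoundedDomain (Bx (bm θ₁ θ₂)) := H761.isBoundedDomain_Bx fun i => by
    fin_cases i <;> simp [H235.bm, hθ₁, hθ₂]
  have hSc : IsCompact (RgN 1 D.v m₀ α β) := H194.isCompact_RgN _ _ _ _ _
  have hS0 : volume (RgN 1 D.v m₀ α β) = 0 :=
    H726.PF.volume_plane (i := 1) (c := D.v 1 + α 1 / 2 ^ m₀) fun x hx => hx.1
  obtain ⟨r₀, hr₀, ε₂, hε₂, hEnC⟩ :=
    hEn' θ₁ θ₂ ν₁ κ m₀ Λ f F D hθ₁ hθ₁4 hθ₂ hθ₂4 hν₁ (by linarith) hκ1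
  obtain ⟨l₀, bE, hbE, hEpC⟩ := hEp' θ₁ θ₂ ν κ m₀ Λ f F D α β hθ₁ hθ₁4 hθ₂ hθ₂4 hν hν4 hκ2 hm4
    hα hlt hRg hun0 hun2
  have hEdC := hEd' θ₁ θ₂ κ m₀ Λ f F hκ0 D (α 0) (β 0) (hlt 0 (by decide)) hun0
    fun k hk => (hedge k hk).trans hRg
  have hHf := hf_finB hp0 D
  have hHf' : ∫⁻ y in Bx (bm θ₁ θ₂), HF p (Bx (bm θ₁ θ₂)) (cmpD (bm θ₁ θ₂) F) y ≠ ⊤ :=
    ne_top_of_le_ne_top hHf (setLIntegral_le_lintegral _ _)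
  -- the line
  have hc2 : (α 2 : ℝ) ≤ D.B₂ ∧ (D.B₂ : ℝ) ≤ β 2 :=
    ⟨by exact_mod_cast hB₂.1, by exact_mod_cast hB₂.2⟩
  have hp2 : (0:ℝ) < 2 ^ m₀ := by positivity
  have hLR : {x : V | x 1 = D.v 1 + D.B₁ / 2 ^ m₀ ∧ x 2 = D.v 2 + D.B₂ / 2 ^ m₀ ∧
      x 0 ∈ Icc (D.v 0 + α 0 / 2 ^ m₀) (D.v 0 + β 0 / 2 ^ m₀)} ⊆ RgN 1 D.v m₀ α β := by
    rintro x ⟨h1, h2, h3⟩
    refine ⟨by rw [h1, hα], fun j hj => ?_⟩
    fin_cases j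
    · exact h3
    · exact absurd rfl hj
    · show D.v 2 + α 2 / 2 ^ m₀ ≤ x 2 ∧ x 2 ≤ D.v 2 + β 2 / 2 ^ m₀
      rw [h2]
      have h4 := (div_le_div_iff_of_pos_right hp2).2 hc2.1
      have h5 := (div_le_div_iff_of_pos_right hp2).2 hc2.2
      exact ⟨by linarith, by linarith⟩
  have hγ : ∀ s ∈ Icc (D.v 0 + α 0 / 2 ^ m₀) (D.v 0 + β 0 / 2 ^ m₀),
      (![s, D.v 1 + D.B₁ / 2 ^ m₀, D.v 2 + D.B₂ / 2 ^ m₀] : V) ∈ RgN 1 D.v m₀ α β := fun s hs =>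
    hLR ⟨rfl, rfl, hs⟩
  obtain ⟨ψ, hψ1, hψ2, hψ3, hψ4, hψ5, hψ6⟩ := line_in hp hθ₁ hθ₁4 hθ₂ hθ₂4 D hhom
    (hlt 0 (by decide)) hun0 (fun k hk => (hedge k hk).trans hRg) (fun s hs => hRg (hγ s hs)) hκP
    hκ4
  -- the segments
  have hCc0 : 0 < Cc := by linarith
  obtain ⟨rz, hrz, hz⟩ := H726.PF.exists_zo hUd.1 hhom hRg hSc hS0 hHf'
    (η := ENNReal.ofReal (e / Cc)) (ENNReal.ofReal_pos.2 (by positivity)).ne'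
  obtain ⟨n₀, hP'⟩ := hP (D.v 0) m₀ (α 0) (β 0) Λ _ ψ (hlt 0 (by decide)) hun0 hΛ.1 hψ1 hψ2 hψ3
    hψ4 hψ5 hψ6 (min (rz / 2) e) (lt_min (by positivity) he)
  obtain ⟨G₃, j₀, hG1, hG2, hP''⟩ := hP' (max n₀ m₀) (le_max_left _ _)
  obtain ⟨ι, hι, lo, hi, R, rP, hrP, hPF1, hPF2, hR, hgr, hbx, hpl⟩ := hP'' j₀ le_rfl
  obtain ⟨r, hr, hrr, Kc, hKcΛ, hKc, hKcm⟩ := H726.PF.exists_kc hΛ.1 hhom hRg hSc hrP
  have hZo : ∃ r > 0, ∫⁻ x in {x | x ∈ Bx (bm θ₁ θ₂) ∧ ∃ y ∈ ⋃ z, bx (lo z) (hi z) (R z),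
      ‖cmp (bm θ₁ θ₂) f x - y‖ ≤ r}, HF p (Bx (bm θ₁ θ₂)) (cmpD (bm θ₁ θ₂) F) x ≤
      ENNReal.ofReal (e / Cc) := by
    refine ⟨rz / 2, by positivity, le_trans (lintegral_mono_set ?_) hz⟩
    rintro x ⟨hx, y, hy, hxy⟩
    obtain ⟨z, hy⟩ := mem_iUnion.1 hy
    obtain ⟨s, hs, hys⟩ := hbx z y hy
    refine ⟨hx, _, hγ s hs, ?_⟩
    calc _ ≤ ‖cmp (bm θ₁ θ₂) f x - y‖ + ‖y - cmp (bm θ₁ θ₂) f
            ![s, D.v 1 + D.B₁ / 2 ^ m₀, D.v 2 + D.B₂ / 2 ^ m₀]‖ :=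
          norm_sub_le_norm_sub_add_norm_sub _ _ _
      _ ≤ rz / 2 + rz / 2 := add_le_add hxy (hys.trans (min_le_left _ _))
      _ = rz := by ring
  -- the oracles
  obtain ⟨εB, hεB, M₀, hM₀, hBO⟩ := hBox (Bx (bm θ₁ θ₂)) Λ (cmp (bm θ₁ θ₂) f)
    (cmpD (bm θ₁ θ₂) F) D.v D.nn hUd hΛ hhom hsob D.mono D.rat hgen hown (RgN 1 D.v m₀ α β) hRg
    hSc hS0 e he
  set cT : ℝ := min c (δ / 4) with hcT
  have hcT0 : 0 < cT := lt_min hc (by positivity)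
  have hTO := hTg (Bx (bm θ₁ θ₂)) Λ hΛ ι hι lo hi R b r cT j₀ Kc (min_le_left _ _) hPF1 hPF2
    (fun z => (hR z).trans (min_le_right _ _)) hr hcT0 hKcΛ hKc hgr M₀ hM₀ j D.v (by omega)
  obtain ⟨N₀, hN₀m, hN₀⟩ := H726.PF.exists_pow_le hε (max (max n₀ m₀) (D.nn l₀))
  have hDO := hDom (Bx (bm θ₁ θ₂)) D.v D.nn (HF p (Bx (bm θ₁ θ₂)) (cmpD (bm θ₁ θ₂) F))
    (RgN 1 D.v m₀ α β) r₀ N₀ hUd D.mono hgen hHf hr₀ hRg hSc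
  -- the chain
  set bc : ℝ := min (min r bE) (min u 1) with hbc
  have hbc0 : 0 < bc := lt_min (lt_min hr hbE) (lt_min hu0 one_pos)
  have hbcr : bc ≤ r := (min_le_left _ _).trans (min_le_left _ _)
  have hbcE : bc ≤ bE := (min_le_left _ _).trans (min_le_right _ _)
  have hbcu : bc ≤ u := (min_le_right _ _).trans (min_le_left _ _)
  have hbc1 : bc ≤ 1 := (min_le_right _ _).trans (min_le_right _ _)
  obtain ⟨X, I, k₁, r', O⟩ := hCh' Cu δ Lc j hCu hLc hδ hj (Bx (bm θ₁ θ₂)) Λ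
    (cmp (bm θ₁ θ₂) f) (cmpD (bm θ₁ θ₂) F) D.v D.nn εB e (3 * e) ε₂ M₀ bc r₀ (RgN 1 D.v m₀ α β)
    _ _ _ hUd hΛ hhom hsob D.rat D.mono hgen hgx he he3 hε1 hε₂ hM₀ hbc0 hr₀ hRg hSc hZo hBO hTO hDO
  obtain ⟨mt, gg, hr', hTP⟩ := O.xt
  obtain ⟨nS, hN₁, ⟨l, hl⟩, hgS⟩ := O.xd
  subst hl
  have hN₂ : max (max n₀ m₀) (D.nn l₀) ≤ D.nn l := hN₀m.trans hN₁
  have hn₃ : max n₀ m₀ ≤ D.nn l := (le_max_left _ _).trans hN₂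
  have hmS : m₀ ≤ D.nn l := (le_max_right _ _).trans hn₃
  have hll : l₀ ≤ l := D.mono.le_iff_le.1 ((le_max_right _ _).trans hN₂)
  have hfine : (1:ℝ) / 2 ^ D.nn l ≤ 3 * e := le_trans (by gcongr; norm_num) hN₀
  have hsc := H194.sc_up hmS α β
  -- the plane and the line
  have pl : PlB1 θ₁ θ₂ ν₁ τ X (D.nn l) (up m₀ (D.nn l) α) (up m₀ (D.nn l) β)
      (upz m₀ (D.nn l) D.B₂) :=
    hPlB p Cu Lc δ j (3 * e) θ₁ θ₂ ν₁ τ Λ (cmp (bm θ₁ θ₂) f) (cmpD (bm θ₁ θ₂) F) D.v X I k₁ m₀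
      (D.nn l) D.B₁ D.B₂ α β hθ₁ hθ₂ hν₁ D.mid₁ D.mid₂ hm3 hfine hα hlt hun0 hB₂ hRg hcov O.eq
      O.off hmS hgS
  have hnear : ∀ x ∈ RgN 1 D.v m₀ α β, ‖X.h₁.toFun x - cmp (bm θ₁ θ₂) f x‖ ≤ bc := fun x hx =>
    O.close x (hRg hx) fun k hk hxk => Set.disjoint_left.1 (O.off k hk) hxk hx
  have hup1 : up m₀ (D.nn l) α 1 = upz m₀ (D.nn l) D.B₁ := by
    show 2 ^ (D.nn l - m₀) * α 1 = 2 ^ (D.nn l - m₀) * D.B₁
    rw [hα]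
  -- edges
  have hEdge : ∀ i, i ≠ 1 → ∀ k ∈ redgeN 1 (up m₀ (D.nn l) α) (up m₀ (D.nn l) β) i,
      eInt D.v ((D.nn l, k), i) (fun x => ENNReal.ofReal ‖lineDeriv ℝ X.h₁.toFun x (ev i) -
        cl (cmpD (bm θ₁ θ₂) F x) (ev i)‖) ≤ ENNReal.ofReal (bc / 2 ^ D.nn l) := fun i hi k hk =>
    O.edge ((D.nn l, k), i) (pl.minE i hi k hk) fun k' hk' =>
      (O.off k' hk').symm.mono_left (H194.edge_sub_RgN hsc hi hk)
  have hmem : ∀ k ∈ Finset.Ico (upz m₀ (D.nn l) (α 0)) (upz m₀ (D.nn l) (β 0)),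
      ![k, upz m₀ (D.nn l) D.B₁, upz m₀ (D.nn l) D.B₂] ∈
        redgeN 1 (up m₀ (D.nn l) α) (up m₀ (D.nn l) β) 0 := by
    intro k hk
    rw [Finset.mem_Ico] at hk
    refine (H194.mem_redgeN (by decide)).2 ⟨hup1.symm, hk, fun j hj1 hj0 => ?_⟩
    fin_cases j
    · exact absurd rfl hj0
    · exact absurd rfl hj1
    · exact pl.m₂mem
  have hLE : ∀ k ∈ Finset.Ico (upz m₀ (D.nn l) (α 0)) (upz m₀ (D.nn l) (β 0)),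
      MinEdge D.v X.I₁ (ledge (D.nn l) (upz m₀ (D.nn l) D.B₁) (upz m₀ (D.nn l) D.B₂) k) :=
    fun k hk => pl.minE 0 (by decide) _ (hmem k hk)
  -- the target
  obtain ⟨G, tp⟩ := hTgB p Cu Lc δ j (3 * e) (Bx (bm θ₁ θ₂)) Λ (cmp (bm θ₁ θ₂) f)
    (cmpD (bm θ₁ θ₂) F) D.v X m₀ (max n₀ m₀) (D.nn l) mt D.B₁ D.B₂ (α 0) (β 0) G₃ ι lo hi R b r
    cT Kc _ gg hr hcT0 (min_le_right _ _) (hlt 0 (by decide)) (le_max_right _ _) hn₃ rfl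
    (hLR.trans hRg) hG1 hG2
    (fun k hk => by
      obtain ⟨z, hz⟩ := hpl k hk
      refine ⟨z, fun u hu y hy j hj => (hz u hu y (hy.trans hrr) j hj).trans ?_⟩
      linarith)
    (fun x hx => hKcm x (hLR hx)) (fun k hk => (O.off k hk).mono_right hLR)
    (fun x hx => (hnear x (hLR hx)).trans hbcr) hLE
    (fun a ha => (O.small a ha).trans (hr' a).le) hTP
  -- the edges of the line
  obtain ⟨Xe, ed⟩ := hEdC (D.nn l) hmS Cu Lc δ j (3 * e) X bc hbc0 hbc1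
    (by
      have h1 : Ke * u = e := by rw [hu]; field_simp
      calc Ke * (κ + bc) ≤ Ke * (u + u) := by gcongr
        _ = 2 * (Ke * u) := by ring
        _ = 2 * e := by rw [h1]
        _ ≤ 3 * e := by linarith)
    (fun k hk => hEdge 0 (by decide) _ (hmem k hk))
  exact ⟨D.v, ⟨{
    toR2 := X
    nS := D.nn l
    a := up m₀ (D.nn l) α
    b := up m₀ (D.nn l) β
    m₂ := upz m₀ (D.nn l) D.B₂
    mt := mt
    G := G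
    gg := gg
    Xe := Xe
    en := enB1_mono (le_max_left _ _) hθ₁.le hθ₂.le hν₁.le (hEnC Cu Lc δ j (3 * e) X O.en)
    pl := pl
    ep := epB1_mono (le_max_right _ _) hθ₂.le hν.le
      (hEpC l hll hmS Cu Lc δ j (3 * e) X bc hbc0 hbcE hEdge)
    tp := by
      rw [hup1]
      exact tgB1_mono (min_le_left _ _) tp
    ed := by
      rw [hup1]
      exact ed }⟩⟩

/-- **[X4]** the data before `K3C`, rank one -/
theorem specPreBX {p : ℝ} (hp : 3 ≤ p) {GX : GXT} (hB : SpecBVBX p GX) (hK : K3C p)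
    (hC : SpecChainX p GX) : SpecPreB p :=
  specPreBXAsm (by linarith) hB H16.specRectB (H911.specBoxAt hp) H79.SegB.specSegB
    H851.specTgtF1 H194.specDomL hK hC (H439.EN.specEnB (by linarith)) H51.specPlB
    (H439.EN.specEpB (by linarith)) H237.specTgB (H582.specEdB (by linarith))

end Vale.Agent.P073.H622
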