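import Vale.Agent.P073.H622.TgtUse
import Vale.Agent.P073.H234.ChainDef

/-!
# P073, [CHAIN], [TGT-USE]: `SpecUse`
-/

namespace Vale.Agent.P073.H622

/-- **[TGT-USE]** -/
theorem specUse {p : ℝ} (hp : 0 ≤ p) : H234.Ch.SpecUse p := by
  intro Cu Lc Ω Λ f F εB ε ε' ε₂ M₀ j c τ φ κ μ s v nn K x c₀ a N Zo XT _ hΛ hf B hc₀ _ hφ hκ
    hhigh hZ hε₂ hT
  exact tgt_useO (n := fun k => k.1 + a (x k)) hp hΛ hf B hc₀ hφ (fun y => (hκ y).2)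
    (fun _ => rfl) hhigh hZ hT N hε₂

end Vale.Agent.P073.H622
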